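import Vale.Agent.P272.K.Stmt
import Mathlib.LinearAlgebra.Matrix.SpecialLinearGroup
import Mathlib.LinearAlgebra.Projectivization.Basic
import Mathlib.Algebra.MvPolynomial.Eval
import Mathlib.GroupTheory.Solvable
import Mathlib.Analysis.Calculus.FDeriv.Defs
import Mathlib.Analysis.Analytic.Basic

/-!
# P280: rational homogeneous manifolds, holomorphic vector fields
-/

open scoped Topology Matrix LinearAlgebra.Projectivization
open Vale.Agent.P272.K

noncomputable section

namespace Vale.Agent.P280Z.Gp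

/-- the special linear group -/
abbrev SLn (N : ℕ) : Type := Matrix.SpecialLinearGroup (Fin N) ℂ

variable {N : ℕ}

/-- Zariski closed subsets of `SL_N(ℂ)`: common zeros of polynomials in the matrix entries -/
def ZClosed (A : Set (SLn N)) : Prop :=
  ∃ I : Set (MvPolynomial (Fin N × Fin N) ℂ),
    ∀ g, g ∈ A ↔ ∀ p ∈ I, MvPolynomial.eval (fun a => g.1 a.1 a.2) p = 0

/-- connected for the Zariski topology -/
def ZConn (A : Set (SLn N)) : Prop :=
  ∀ B C, ZClosed B → ZClosed C → A ⊆ B ∪ C → A ∩ (B ∩ C) = ∅ → A ⊆ B ∨ A ⊆ C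

/-- `G` is a connected semisimple algebraic group: it is Zariski closed and connected, and it has
no connected solvable normal subgroup besides the trivial one -/
structure IsSemisimple (G : Subgroup (SLn N)) : Prop where
  closed : ZClosed (G : Set (SLn N))
  conn : ZConn (G : Set (SLn N))
  rad : ∀ R : Subgroup (SLn N), R ≤ G → (∀ g ∈ G, ∀ r ∈ R, g * r * g⁻¹ ∈ R) →
    ZConn (R : Set (SLn N)) → Group.IsSolvable R → R = ⊥

/-- `B` is a Borel subgroup of `G`: a maximal connected solvable subgroup -/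
def IsBorel (B G : Subgroup (SLn N)) : Prop :=
  Maximal (fun R : Subgroup (SLn N) => R ≤ G ∧ ZConn (R : Set (SLn N)) ∧ Group.IsSolvable R) B

/-- `P` is a parabolic subgroup of `G`: a closed subgroup which contains a Borel subgroup -/
structure IsParabolic (P G : Subgroup (SLn N)) : Prop where
  closed : ZClosed (P : Set (SLn N))
  le : P ≤ G
  borel : ∃ B, IsBorel B G ∧ B ≤ P

variable (n : ℕ) {X : Type} [TopologicalSpace X] [ChartedSpace (Cm n) X]

/-- `φ` is an injective holomorphic immersion into the projective space: near each point it has a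
holomorphic lift `f` to `ℂ^N` whose differential is injective modulo the line of `f` -/
structure IsProjEmb (φ : X → ℙ ℂ (Cm N)) : Prop where
  inj : Function.Injective φ
  loc : ∀ (e : Chart n X) x, At e x → ∃ f : Cm n → Cm N, AnalyticAt ℂ f (e x) ∧
    (∀ᶠ z in 𝓝 (e x), ∃ h : f z ≠ 0, φ (e.symm z) = Projectivization.mk ℂ (f z) h) ∧
    ∀ (ξ : Cm n) (c : ℂ), fderiv ℂ f (e x) ξ = c • f (e x) → ξ = 0

variable (X) in
/-- `X` is rational homogeneous: `X` is embedded in a projective space `ℙ(ℂ^N)` as the orbit `G / P`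
of a point `[v]` under a connected semisimple algebraic group `G ⊆ SL_N(ℂ)`, and the stabiliser `P`
of `[v]` in `G` is a parabolic subgroup -/
def RatHom : Prop :=
  ∃ (N : ℕ) (G P : Subgroup (SLn N)) (φ : X → ℙ ℂ (Cm N)) (v : Cm N),
    IsSemisimple G ∧ IsParabolic P G ∧ IsProjEmb n φ ∧ v ≠ 0 ∧
    (∀ g, g ∈ P ↔ g ∈ G ∧ ∃ c : ℂ, g.1 *ᵥ v = c • v) ∧
    ∀ (w : Cm N) (hw : w ≠ 0), Projectivization.mk ℂ w hw ∈ Set.range φ ↔
      ∃ g ∈ G, ∃ c : ℂ, w = c • (g.1 *ᵥ v)

/-- `ξ` is a holomorphic vector field, `Σ ξ_i ∂/∂z_i` in the charts -/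
structure IsField (ξ : Chart n X → Cm n → Cm n) : Prop where
  holo : ∀ e x, At e x → AnalyticAt ℂ (ξ e) (e x)
  change : ∀ e e' x, At e x → At e' x → ξ e' (e' x) = jacM e e' x *ᵥ ξ e (e x)

variable (X) in
/-- the tangent bundle is generated by its global sections -/
def Gen : Prop :=
  ∀ (e : Chart n X) x, At e x → ∀ v : Cm n, ∃ ξ, IsField n ξ ∧ ξ e (e x) = v

end Vale.Agent.P280Z.Gp
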