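import Vale.Agent.P280Z.Gp.Sk
import Vale.Agent.P285Z.Fd

/-!
# P280, block GP: the complete linear system
-/

open scoped Manifold ContDiff Topology Matrix
open Set Filter
open Vale.Agent.P272.K Vale.Agent.P285.H281.FD
open Vale.Agent.P301.H599 (LineBundle IsMetric)
open Vale.Agent.P301.H98 (IsSection nrm nrm_eq)

noncomputable section

namespace Vale.Agent.P280Z.Gp

namespace Full

variable {n N : ℕ} {X : Type} [TopologicalSpace X] [ChartedSpace (Cm n) X] {L : Bd X}

variable (n L) in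
/-- the sections whose coefficients vanish outside of their domains -/
def S : Submodule ℂ (L.ι → X → ℂ) where
  carrier := {σ | IsSec n L σ ∧ ∀ b x, x ∉ L.U b → σ b x = 0}
  add_mem' := fun {σ τ} h k => ⟨⟨fun i e x he hi => (h.1.holo i e x he hi).add (k.1.holo i e x he hi),
    fun i j x hi hj => by
      simp only [Pi.add_apply, h.1.change i j x hi hj, k.1.change i j x hi hj, mul_add]⟩,
    fun b x hx => by simp only [Pi.add_apply, h.2 b x hx, k.2 b x hx, add_zero]⟩
  zero_mem' := ⟨⟨fun _ _ _ _ _ => contDiffAt_const, fun _ _ _ _ _ => (mul_zero _).symm⟩,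
    fun _ _ _ => rfl⟩
  smul_mem' := fun c σ h => ⟨⟨fun i e x he hi => contDiffAt_const.mul (h.1.holo i e x he hi),
    fun i j x hi hj => by
      simp only [Pi.smul_apply, h.1.change i j x hi hj, smul_eq_mul, mul_left_comm]⟩,
    fun b x hx => by simp only [Pi.smul_apply, h.2 b x hx, smul_zero]⟩

theorem ev (hL : IsLB n L) {b : L.ι} {x : X} (hx : x ∈ L.U b) {e : Chart n X} (he : At e x) :
    ∀ᶠ z in 𝓝 (e x), e.symm z ∈ L.U b :=
  (e.tendsto_symm he.2).eventually ((hL.isOpen b).mem_nhds hx)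

theorem cut (hL : IsLB n L) {σ : L.ι → X → ℂ} (h : IsSec n L σ) :
    (fun b => (L.U b).indicator (σ b)) ∈ S n L :=
  ⟨⟨fun i e x he hi => (h.holo i e x he hi).congr_of_eventuallyEq
    ((ev hL hi he).mono fun _ hz => indicator_of_mem hz _), fun i j x hi hj => by
      rw [indicator_of_mem hi, indicator_of_mem hj, h.change i j x hi hj]⟩,
    fun _ _ hx => indicator_of_notMem hx _⟩

theorem fin [CompactSpace X] (hL : IsLB n L) {s : L.ι → X → Cm N}
    (hs : ∀ a, IsSec n L fun b x => s b x a) (h0 : ∀ b, ∀ x ∈ L.U b, s b x ≠ 0) :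
    FiniteDimensional ℂ (S n L) := by
  let L' : LineBundle n X L.ι := ⟨L.U, hL.isOpen, hL.cover, L.g,
    fun i j e y he hi hj => (hL.holo i j e y he hi hj).analyticAt, hL.ne_zero, hL.cocycle⟩
  have h1 : ∀ b, ∀ x ∈ L.U b, ∑ a, ‖s b x a‖ ^ 2 ≠ 0 := fun b x hx k => h0 b x hx (funext fun a =>
    norm_eq_zero.1 (pow_eq_zero_iff two_ne_zero |>.1 ((Finset.sum_eq_zero_iff_of_nonneg
      fun _ _ => sq_nonneg _).1 k a (Finset.mem_univ a))))
  have hρ : IsMetric L' fun b x => Real.log (∑ a, ‖s b x a‖ ^ 2) := by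
    refine ⟨fun i e x he hi => ContDiffAt.log (ContDiffAt.sum fun a _ => ContDiffAt.norm_sq ℂ
      ((((hs a).holo i e x he hi).restrict_scalars ℝ).of_le le_top)) ?_, fun i j x hi hj => ?_⟩
    · rw [e.left_inv he.2]
      exact h1 i x hi
    · rw [← Real.log_mul (h1 j x hj) (pow_ne_zero 2 (norm_ne_zero_iff.2 (L'.ne_zero i j x hi hj))),
        Finset.sum_mul]
      refine congrArg Real.log (Finset.sum_congr rfl fun a _ => ?_)
      rw [(hs a).change i j x hi hj, norm_mul, mul_pow, mul_comm]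
  obtain ⟨T, hT⟩ := P285Z.Fd.exists_finset hρ
  let F : S n L →ₗ[ℂ] (T → ℂ) :=
    { toFun := fun σ y => σ.1 (L'.cover y).choose y
      map_add' := fun _ _ => rfl
      map_smul' := fun _ _ => rfl }
  refine FiniteDimensional.of_injective F ((injective_iff_map_eq_zero F).2 fun σ k =>
    Subtype.ext (funext fun b => funext fun x => ?_))
  by_cases hx : x ∈ L.U b
  · have h2 : IsSection L' σ.1 :=
      ⟨fun i e x he hi => (σ.2.1.holo i e x he hi).analyticAt, σ.2.1.change⟩
    have h3 := hT σ.1 h2 (fun y hy => by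
      rw [nrm, show σ.1 (L'.cover y).choose y = 0 from congrFun k ⟨y, hy⟩, norm_zero,
        zero_pow two_ne_zero, zero_mul]) x
    rw [nrm_eq hρ h2 hx] at h3
    exact norm_eq_zero.1 ((pow_eq_zero_iff two_ne_zero).1
      ((mul_eq_zero.1 h3).resolve_right (Real.exp_pos _).ne'))
  · exact σ.2.2 b x hx

end Full

open Full in
theorem full : FULL := by
  intro n N X _ _ _ L s hL hs h
  have := fin hL hs h.nz
  let β := Module.finBasis ℂ (S n L)
  let t : L.ι → X → Cm (Module.finrank ℂ (S n L)) := fun b x a => (β a).1 b x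
  have h1 : ∀ (c : Cm _) b x, (∑ a, c a • β a : S n L).1 b x = c ⬝ᵥ t b x := fun c b x => by
    simp only [Submodule.coe_sum, Finset.sum_apply, Submodule.coe_smul, Pi.smul_apply, smul_eq_mul,
      dotProduct, t]
  have h2 : ∀ σ, IsSec n L σ → ∃ c : Cm _, ∀ b, ∀ x ∈ L.U b, σ b x = c ⬝ᵥ t b x := fun σ k =>
    ⟨β.repr ⟨_, cut hL k⟩, fun b x hx => by
      rw [← h1, β.sum_repr]
      exact (indicator_of_mem hx _).symm⟩
  choose B hB using fun a => h2 _ (hs a)
  let A : Cm _ →L[ℂ] Cm N := LinearMap.toContinuousLinearMap (Matrix.mulVecLin (Matrix.of B))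
  have h3 : ∀ b, ∀ x ∈ L.U b, s b x = A (t b x) := fun b x hx => funext fun a => hB a b x hx
  have h4 : ∀ b, ∀ x ∈ L.U b, ∀ e : Chart n X, At e x →
      AnalyticAt ℂ (fun z => t b (e.symm z)) (e x) := fun b x hx e he =>
    analyticAt_pi_iff.2 fun a => ((β a).2.1.holo b e x he hx).analyticAt
  refine ⟨_, t, fun a => (β a).2.1, ⟨hL.isOpen, hL.cover, h4, fun b x hx k => h.nz b x hx ?_,
    fun b b' x hb hb' => ⟨L.g b b' x, funext fun a => (β a).2.1.change b b' x hb hb'⟩,
    fun b b' x x' hb hb' ⟨c, k⟩ => h.inj b b' x x' hb hb' ⟨c, ?_⟩,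
    fun b x hx e he ξ c k => h.imm b x hx e he ξ c ?_⟩, by_contra fun k => ?_, h2⟩
  · rw [h3 b x hx, k, map_zero]
  · rw [h3 b x hb, h3 b' x' hb', k, map_smul]
  · rw [((A.hasFDerivAt.comp _ (h4 b x hx e he).differentiableAt.hasFDerivAt).congr_of_eventuallyEq
      ((ev hL hx he).mono fun z hz => h3 b _ hz)).fderiv, ContinuousLinearMap.comp_apply, k,
      map_smul, h3 b x hx]
  · obtain ⟨f, k1, k2⟩ := Submodule.exists_le_ker_of_lt_top _ (lt_top_iff_ne_top.2 k)
    have k3 : ∀ v, f v = (fun a => f fun j => if a = j then 1 else 0) ⬝ᵥ v := fun v => by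
      rw [f.pi_apply_eq_sum_univ v]
      exact Finset.sum_congr rfl fun a _ => mul_comm _ _
    have k4 := Fintype.linearIndependent_iff.1 β.linearIndependent
      (fun a => f fun j => if a = j then 1 else 0) (Subtype.ext (funext fun b => funext fun x => by
        by_cases hx : x ∈ L.U b
        · rw [h1, ← k3]
          exact k2 (Submodule.subset_span ⟨b, x, hx, 1, (one_smul _ _).symm⟩)
        · exact (∑ a, _ • β a : S n L).2.2 b x hx))
    exact k1 (LinearMap.ext fun v => by rw [k3, funext k4]; exact zero_dotProduct v)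

end Vale.Agent.P280Z.Gp
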