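import Vale.Agent.P280Z.Gp.Gp
import Vale.Agent.P281Z.Pb.Kode

/-!
# P280, block GP: the final forms
-/

open scoped Manifold ContDiff Topology Matrix
open Vale.Agent.P272.K Vale.Agent.P285.H281.FD Vale.Agent.P281Z Filter
open Vale.Agent.P277 (Bd.inv)
open Vale.Agent.P277Z (Hol)

noncomputable section

namespace Vale.Agent.P280Z.Gp

variable {n : ℕ}

/-- a Fano manifold whose tangent bundle is generated by sections is rational homogeneous -/
theorem of_pos (V : Mf n) [ConnectedSpace V.X] (h : Pos n (Bd.inv (Bd.can n V.X)))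
    (hG : Gen n V.X) : RatHom n V.X := by
  have lb : IsLB n (Bd.inv (Bd.can n V.X)) := by
    have := acan_lb n 1 V.X
    simp only [acan, pow_one] at this
    exact this
  obtain ⟨k, r, s, -, h1, h2, h3⟩ := Pb.kode n V _ lb h
  obtain ⟨S⟩ := Pb.psex r
  obtain ⟨φ, hφ, e⟩ := h3 S
  have hol : ∀ b, ∀ y ∈ (Bd.inv (Bd.can n V.X)).U b, ∀ a, Hol n (fun y => s b y a) y :=
    fun b y hy a c hc => ((h1 a).holo b c y hc hy).analyticAt
  refine gp n (r + 1) k V.X s h1 ⟨lb.isOpen, lb.cover,
    fun b x hx c a => AnalyticAt.pi fun i => hol b x hx i c a, h2,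
    fun b b' x hx hx' => ⟨_, funext fun i => (h1 i).change b b' x hx hx'⟩,
    fun b b' x x' hx hx' q => hφ.inj (by
      rw [e b x hx, e b' x' hx', S.pt_eq_iff (h2 b x hx) (h2 b' x' hx')]
      exact q), fun b x hx c a ξ t q => by_contra fun k0 => ?_⟩ hG
  obtain ⟨l, hl⟩ := Function.ne_iff.1 (h2 b x hx)
  obtain ⟨j, hj⟩ := (S.imm_iff (hol b x hx) hl a).1
    ((hφ.imm x).cng ((lb.isOpen b).eventually_mem hx |>.mono fun y hy => e b y hy)) ξ k0
  have an := AnalyticAt.pi fun i => hol b x hx i c a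
  have d : ∀ i, fderiv ℂ (fun z => s b (c.symm z) i) (c x) ξ = t * s b x i := fun i => by
    rw [fderiv_apply an.differentiableAt]
    exact congrFun q i
  have hl' : s b (c.symm (c x)) l ≠ 0 := by rwa [c.left_inv a.2]
  refine hj ?_
  have d2 := ((hol b x hx j c a).differentiableAt.hasFDerivAt.mul
    ((hasDerivAt_inv hl').comp_hasFDerivAt (c x) (hol b x hx l c a).differentiableAt.hasFDerivAt)).fderiv
  simp only [P277Z.Slc.dd, div_eq_mul_inv]
  erw [d2]
  simp only [_root_.add_apply, _root_.smul_apply, smul_eq_mul, d, Function.comp_apply,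
    c.left_inv a.2]
  field_simp
  ring

/-- the unbundled form -/
theorem of_pos' (X : Type) [TopologicalSpace X] [T2Space X] [CompactSpace X] [ChartedSpace (Cm n) X]
    [IsManifold 𝓘(ℂ, Cm n) ω X] (h : ConnectedSpace X ∧ Pos n (Bd.inv (Bd.can n X)))
    (hG : Gen n X) : RatHom n X :=
  have : ConnectedSpace (Mf.mk X : Mf n).X := h.1
  of_pos (Mf.mk X) h.2 hG

end Vale.Agent.P280Z.Gp
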