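import Vale.Agent.P280Z.Gp.Sk
import Mathlib.Analysis.Calculus.FDeriv.Symmetric
import Mathlib.Analysis.Calculus.FDeriv.Pow
import Mathlib.Analysis.Calculus.Deriv.Inv
import Mathlib.Geometry.Manifold.ContMDiff.Atlas
import Mathlib.Geometry.Manifold.ContMDiff.NormedSpace

/-!
# P280, block GP: the Lie derivative of anticanonical sections
-/

open scoped Manifold ContDiff Topology Matrix
open Filter Complex
open Vale.Agent.P272.K Vale.Agent.P285.H281.FD

noncomputable section

namespace Vale.Agent.P280Z.Gp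

namespace Lie

variable {n : ℕ}

/-- the matrix of a linear map -/
def mt (A : Cm n →L[ℂ] Cm n) : Matrix (Fin n) (Fin n) ℂ := Matrix.of fun p i => A (Pi.single i 1) p

theorem mt_mv (A : Cm n →L[ℂ] Cm n) (v : Cm n) : mt A *ᵥ v = A v := by
  have h : v = ∑ i, v i • (Pi.single i 1 : Cm n) := by
    funext j
    simp [Finset.sum_apply, Pi.single_apply]
  funext p
  conv_rhs => rw [h]
  simp [mt, Matrix.mulVec, dotProduct, Finset.sum_apply, mul_comm]

theorem mt_comp (A B : Cm n →L[ℂ] Cm n) : mt (A.comp B) = mt A * mt B := by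
  ext p i
  have h := congrFun (mt_mv A (B (Pi.single i 1))) p
  exact h.symm

theorem dz_eq {f : Cm n → ℂ} {z : Cm n} (h : DifferentiableAt ℂ f z) (i : Fin n) :
    dz i f z = fderiv ℂ f z (Pi.single i 1) := by
  have k : (Pi.single i I : Cm n) = I • Pi.single i 1 := by
    rw [← Pi.single_smul, smul_eq_mul, mul_one]
  rw [dz, h.fderiv_restrictScalars ℝ, k]
  simp only [ContinuousLinearMap.coe_restrictScalars', map_smul, smul_eq_mul]
  linear_combination (-(fderiv ℂ f z (Pi.single i 1)) / 2) * I_mul_I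

/-- the formula of Jacobi -/
theorem jacobi {J : Cm n → Matrix (Fin n) (Fin n) ℂ} {J' : Fin n → Fin n → Cm n →L[ℂ] ℂ} {z : Cm n}
    (h : ∀ p i, HasFDerivAt (fun y => J y p i) (J' p i) z) :
    DifferentiableAt ℂ (fun y => (J y).det) z ∧ ∀ v, fderiv ℂ (fun y => (J y).det) z v =
      ((J z).adjugate * Matrix.of fun p i => J' p i v).trace := by
  have k := (HasFDerivAt.fun_sum (u := Finset.univ) fun (σ : Equiv.Perm (Fin n)) _ =>
    (HasFDerivAt.finsetProd (u := Finset.univ) fun i _ => h (σ i) i).const_mul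
      (((Equiv.Perm.sign σ : ℤˣ) : ℤ) : ℂ)).congr_of_eventuallyEq (f₁ := fun y => (J y).det)
    (Eventually.of_forall fun y => Matrix.det_apply' (J y))
  refine ⟨k.differentiableAt, fun v => ?_⟩
  have k2 : ∀ i, ((J z).adjugate * Matrix.of fun p i => J' p i v) i i =
      ((J z).updateCol i fun p => J' p i v).det := fun i => by
    rw [← Matrix.cramer_apply, Matrix.cramer_eq_adjugate_mulVec]
    rfl
  rw [k.fderiv, Matrix.trace]
  simp only [Matrix.diag_apply, k2, Matrix.det_apply', _root_.sum_apply, _root_.smul_apply,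
    smul_eq_mul, Finset.mul_sum]
  rw [Finset.sum_comm]
  refine Finset.sum_congr rfl fun i _ => Finset.sum_congr rfl fun σ _ => ?_
  rw [← Finset.mul_prod_erase _ _ (Finset.mem_univ i), Matrix.updateCol_self, mul_comm (J' _ _ _)]
  congr 2
  exact Finset.prod_congr rfl fun j hj => by rw [Matrix.updateCol_ne (Finset.ne_of_mem_erase hj)]

variable {X : Type} [TopologicalSpace X] [ChartedSpace (Cm n) X] [IsManifold 𝓘(ℂ, Cm n) ω X]
  {e e' : Chart n X} {x : X}

theorem tr_cd (h : At e x) (h' : At e' x) : ContDiffAt ℂ ω (fun z => e' (e.symm z)) (e x) := by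
  rw [← contMDiffAt_iff_contDiffAt]
  have h1 : ContMDiffAt 𝓘(ℂ, Cm n) 𝓘(ℂ, Cm n) ω e.symm (e x) :=
    (contMDiffOn_symm_of_mem_maximalAtlas (IsManifold.subset_maximalAtlas h.1)).contMDiffAt
      (e.open_target.mem_nhds (e.map_source h.2))
  have h2 : ContMDiffAt 𝓘(ℂ, Cm n) 𝓘(ℂ, Cm n) ω e' (e.symm (e x)) := by
    rw [e.left_inv h.2]
    exact (contMDiffOn_of_mem_maximalAtlas (IsManifold.subset_maximalAtlas h'.1)).contMDiffAt
      (e'.open_source.mem_nhds h'.2)
  exact h2.comp (e x) h1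

theorem tr_d (h : At e x) (h' : At e' x) : DifferentiableAt ℂ (fun z => e' (e.symm z)) (e x) :=
  (tr_cd h h').differentiableAt (by simp)

theorem jac_eq (h : At e x) (h' : At e' x) :
    jacM e e' x = mt (fderiv ℂ (fun z => e' (e.symm z)) (e x)) := by
  ext p i
  have k := tr_d h h'
  rw [jacM, Matrix.of_apply, dz_eq (differentiableAt_pi.1 k p), fderiv_apply k]
  rfl

omit [IsManifold 𝓘(ℂ, Cm n) ω X] in
theorem ev (h : At e x) (h' : At e' x) {Q : X → Cm n → Prop}
    (k : ∀ y, At e y → At e' y → Q y (e y)) : ∀ᶠ z in 𝓝 (e x), Q (e.symm z) z := by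
  have k1 : ∀ᶠ z in 𝓝 (e x), e.symm z ∈ e'.source :=
    (e.continuousAt_symm (e.map_source h.2)).eventually_mem
      (by rw [e.left_inv h.2]; exact e'.open_source.mem_nhds h'.2)
  filter_upwards [k1, e.open_target.mem_nhds (e.map_source h.2)] with z h1 h2
  have h3 := k _ ⟨h.1, e.map_target h2⟩ ⟨h'.1, h1⟩
  rwa [e.right_inv h2] at h3

theorem chain {G : Type} [NormedAddCommGroup G] [NormedSpace ℂ G] (F : X → G) (h : At e x)
    (h' : At e' x) (hF : DifferentiableAt ℂ (fun z => F (e'.symm z)) (e' x)) :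
    HasFDerivAt (fun z => F (e.symm z)) ((fderiv ℂ (fun z => F (e'.symm z)) (e' x)).comp
      (fderiv ℂ (fun z => e' (e.symm z)) (e x))) (e x) := by
  have k : HasFDerivAt (fun z => F (e'.symm z)) (fderiv ℂ (fun z => F (e'.symm z)) (e' x))
      (e' (e.symm (e x))) := by
    rw [e.left_inv h.2]
    exact hF.hasFDerivAt
  refine (k.comp (e x) (tr_d h h').hasFDerivAt).congr_of_eventuallyEq ?_
  exact ev h h' (Q := fun y _ => F y = F (e'.symm (e' y))) fun y _ hy => by rw [e'.left_inv hy.2]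

theorem chg0 {G : Type} [NormedAddCommGroup G] [NormedSpace ℂ G] {ξ : Chart n X → Cm n → Cm n}
    (hξ : IsField n ξ) (F : X → G) (h : At e x) (h' : At e' x)
    (hF : DifferentiableAt ℂ (fun z => F (e'.symm z)) (e' x)) :
    fderiv ℂ (fun z => F (e.symm z)) (e x) (ξ e (e x)) =
      fderiv ℂ (fun z => F (e'.symm z)) (e' x) (ξ e' (e' x)) := by
  rw [(chain F h h' hF).fderiv, hξ.change e e' x h h', jac_eq h h', mt_mv]
  rfl

theorem det_ne (h : At e x) (h' : At e' x) : (jacM e e' x).det ≠ 0 := by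
  have k := (chain (fun y => e y) h h' (tr_d h' h)).fderiv
  have k1 : (fun z => e (e.symm z)) =ᶠ[𝓝 (e x)] id := e.eventually_right_inverse' h.2
  rw [k1.fderiv_eq, fderiv_id] at k
  have k2 := congrArg (fun A => (mt A).det) k
  have k3 : mt (ContinuousLinearMap.id ℂ (Cm n)) = 1 := by
    ext p i
    simp [mt, Pi.single_apply, Matrix.one_apply]
  simp only [mt_comp, k3, Matrix.det_one, Matrix.det_mul] at k2
  rw [jac_eq h h']
  exact right_ne_zero_of_mul (k2 ▸ one_ne_zero)

theorem jac0 {ξ : Chart n X → Cm n → Cm n} (hξ : IsField n ξ) (h : At e x) (h' : At e' x) :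
    DifferentiableAt ℂ (fun z => (jacM e e' (e.symm z)).det) (e x) ∧
    fderiv ℂ (fun z => (jacM e e' (e.symm z)).det) (e x) (ξ e (e x)) =
      (dv (ξ e') (e' x) - dv (ξ e) (e x)) * (jacM e e' x).det := by
  have t1 := tr_cd h h'
  have t2 : HasFDerivAt (fderiv ℂ fun z => e' (e.symm z))
      (fderiv ℂ (fderiv ℂ fun z => e' (e.symm z)) (e x)) (e x) :=
    ((t1.fderiv_right (m := 1) le_top).differentiableAt (by simp)).hasFDerivAt
  have e1 : (fun z => (jacM e e' (e.symm z)).det) =ᶠ[𝓝 (e x)]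
      fun z => (mt (fderiv ℂ (fun z => e' (e.symm z)) z)).det :=
    ev h h' (Q := fun y z => (jacM e e' y).det = (mt (fderiv ℂ (fun z => e' (e.symm z)) z)).det)
      fun y hy hy' => by rw [jac_eq hy hy']
  obtain ⟨j1, j2⟩ := jacobi (J := fun z => mt (fderiv ℂ (fun z => e' (e.symm z)) z)) (z := e x)
    fun p i => hasFDerivAt_pi'.1 (t2.clm_apply (hasFDerivAt_const (Pi.single i 1) (e x))) p
  refine ⟨j1.congr_of_eventuallyEq e1, ?_⟩
  have e2 : (fun z => ξ e' (e' (e.symm z))) =ᶠ[𝓝 (e x)]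
      fun z => fderiv ℂ (fun z => e' (e.symm z)) z (ξ e z) :=
    ev h h' (Q := fun y z => ξ e' (e' y) = fderiv ℂ (fun z => e' (e.symm z)) z (ξ e z))
      fun y hy hy' => by rw [hξ.change e e' y hy hy', jac_eq hy hy', mt_mv]
  have d1 : HasFDerivAt (ξ e') (fderiv ℂ (ξ e') (e' x)) (e' (e.symm (e x))) := by
    rw [e.left_inv h.2]
    exact (hξ.holo e' x h').differentiableAt.hasFDerivAt
  have d2 := d1.comp (e x) (tr_d h h').hasFDerivAt
  have d3 := (t2.clm_apply (hξ.holo e x h).differentiableAt.hasFDerivAt).congr_of_eventuallyEq e2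
  have d4 := congrArg mt (d2.unique d3)
  have d5 : ∀ A B : Cm n →L[ℂ] Cm n, mt (A + B) = mt A + mt B := fun _ _ => rfl
  rw [d5, mt_comp, mt_comp] at d4
  rw [e1.fderiv_eq, j2, jac_eq h h']
  have d6 : (Matrix.of fun p i => ((ContinuousLinearMap.proj p).comp
      ((fderiv ℂ (fun z => e' (e.symm z)) (e x)).comp (0 : Cm n →L[ℂ] Cm n) +
        (fderiv ℂ (fderiv ℂ fun z => e' (e.symm z)) (e x)).flip (Pi.single i 1))) (ξ e (e x))) =
      mt ((fderiv ℂ (fderiv ℂ fun z => e' (e.symm z)) (e x)).flip (ξ e (e x))) := by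
    ext p i
    simp [mt, t1.isSymmSndFDerivAt_of_omega.eq (ξ e (e x))]
  rw [d6, ← sub_eq_iff_eq_add'.2 d4, Matrix.mul_sub, Matrix.trace_sub, ← Matrix.mul_assoc,
    Matrix.trace_mul_cycle, Matrix.mul_adjugate, ← Matrix.mul_assoc, Matrix.adjugate_mul]
  simp only [Matrix.smul_mul, Matrix.one_mul, Matrix.trace_smul, smul_eq_mul]
  simp only [Matrix.trace, Matrix.diag_apply, mt, Matrix.of_apply, dv]
  ring

theorem hol {ξ : Chart n X → Cm n → Cm n} (hξ : IsField n ξ) (s : X → ℂ) (k : ℕ) {c : Chart n X}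
    (hc : At c x) (he : At e x) (h1 : ContDiffAt ℂ ω (fun z => s (e.symm z)) (e x))
    (h2 : ContDiffAt ℂ ω (fun z => s (c.symm z)) (c x)) :
    ContDiffAt ℂ ω (fun z => fderiv ℂ (fun z => s (e.symm z)) (e (c.symm z)) (ξ e (e (c.symm z))) -
      k * dv (ξ e) (e (c.symm z)) * s (c.symm z)) (c x) := by
  have t := tr_cd hc he
  have a2 : ContDiffAt ℂ ω (ξ e) (e x) := (hξ.holo e x he).contDiffAt
  have a3 : ContDiffAt ℂ ω (fun z => fderiv ℂ (fun z => s (e.symm z)) z (ξ e z)) (e x) :=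
    (h1.fderiv_right (m := ω) le_top).clm_apply a2
  have a4 : ContDiffAt ℂ ω (dv (ξ e)) (e x) :=
    ContDiffAt.sum fun i _ => contDiffAt_pi.1
      ((a2.fderiv_right (m := ω) le_top).clm_apply contDiffAt_const) i
  have q : e x = (fun z => e (c.symm z)) (c x) := by simp only [c.left_inv hc.2]
  rw [q] at a3 a4
  have b3 := a3.comp (c x) t
  have b4 := a4.comp (c x) t
  have b5 : ContDiffAt ℂ ω (fun z => (k : ℂ) * dv (ξ e) (e (c.symm z)) * s (c.symm z)) (c x) :=
    (contDiffAt_const.mul b4).mul h2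
  exact ContDiffAt.sub b3 b5

end Lie

open Lie

theorem chg : CHG := fun _ _ _ _ _ _ _ F hξ _ _ _ h h' hF =>
  chg0 hξ F h h' hF.differentiableAt

theorem jac : JAC := fun _ _ _ _ _ _ hξ _ _ _ h h' => (jac0 hξ h h').2

theorem lie : LIE := by
  intro n k X _ _ _ ξ s hξ hs
  refine ⟨fun (e : Chart n X) c x hc he => ?_, fun (e e' : Chart n X) x h h' => ?_⟩
  · exact hol hξ (s e) k hc he (hs.holo e e x he he) (hs.holo e c x hc he)
  · have he : At e x := h
    have he' : At e' x := h'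
    obtain ⟨j1, j2⟩ := jac0 hξ he he'
    have j0 := det_ne he he'
    have r1 := (hs.holo e' e' x he' h').differentiableAt (by simp)
    have r2 := (chain (s e') he he' r1).differentiableAt
    have r3 := chg0 hξ (s e') he he' r1
    have e1 : (fun z => s e (e.symm z)) =ᶠ[𝓝 (e x)]
        fun z => (jacM e e' (e.symm z)).det⁻¹ ^ k * s e' (e.symm z) :=
      ev he he' (Q := fun y _ => s e y = (jacM e e' y).det⁻¹ ^ k * s e' y)
        fun y hy hy' => hs.change e e' y hy hy'
    have j3 : (fun z => (jacM e e' (e.symm z)).det) (e x) ≠ 0 := by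
      simpa only [e.left_inv he.2] using j0
    have d1 := (((hasDerivAt_inv j3).comp_hasFDerivAt (e x) j1.hasFDerivAt).pow k).mul
      r2.hasFDerivAt
    have d2 := (d1.congr_of_eventuallyEq e1).fderiv
    have c1 : s e x = (jacM e e' x).det⁻¹ ^ k * s e' x := hs.change e e' x h h'
    show fderiv ℂ (fun z => s e (e.symm z)) (e x) (ξ e (e x)) - k * dv (ξ e) (e x) * s e x =
      (jacM e e' x).det⁻¹ ^ k *
        (fderiv ℂ (fun z => s e' (e'.symm z)) (e' x) (ξ e' (e' x)) - k * dv (ξ e') (e' x) * s e' x)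
    rw [d2, c1, ← r3]
    simp only [_root_.add_apply, _root_.smul_apply, smul_eq_mul, j2, Function.comp_apply,
      Pi.pow_apply, e.left_inv he.2, nsmul_eq_mul]
    cases k with
    | zero => simp
    | succ k =>
      simp only [Nat.add_sub_cancel, pow_succ]
      field_simp
      ring

end Vale.Agent.P280Z.Gp
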