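import Vale.Agent.P280Z.Gp.Sk
import Vale.Agent.P301Z.Al.Chow
import Vale.Agent.P301Z.Al.Cone
import Vale.Agent.P301Z.Al.Homp
import Vale.Agent.P281Z.Pb.Api
import Vale.Agent.P281Z.Pb.Ps
import Vale.Agent.P281Z.Mf.An

/-!
# P280, block GP: the cone over an embedded compact manifold is algebraic
-/

open scoped Manifold ContDiff Topology Matrix
open Set Filter
open Vale.Agent.P272.K Vale.Agent.P281Z
open Vale.Agent.P277Z (Hol)
open Vale.Agent.P277Z.Slc (dd)

noncomputable section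

namespace Vale.Agent.P280Z.Gp

namespace Alg

theorem ratio {n N : ℕ} {f : Cm n → Cm N} {z ξ : Cm n} (hf : AnalyticAt ℂ f z) {l : Fin N}
    (hl : f z l ≠ 0) (h : ∀ j, fderiv ℂ (fun w => f w j / f w l) z ξ = 0) :
    fderiv ℂ f z ξ = (fderiv ℂ f z ξ l / f z l) • f z := by
  funext j
  have d : ∀ a, HasFDerivAt (fun w => f w a)
      ((ContinuousLinearMap.proj a).comp (fderiv ℂ f z)) z := fun a =>
    hasFDerivAt_pi'.1 hf.differentiableAt.hasFDerivAt a
  have hq : DifferentiableAt ℂ (fun w => f w j / f w l) z :=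
    (d j).differentiableAt.fun_mul ((d l).differentiableAt.fun_inv hl) |>.congr_of_eventuallyEq
      (.of_forall fun w => div_eq_mul_inv _ _)
  have e : (fun w => f w j) =ᶠ[𝓝 z] fun w => f w j / f w l * f w l := by
    filter_upwards [(d l).continuousAt.eventually_ne hl] with w hw
    rw [div_mul_cancel₀ _ hw]
  have k := ((hq.hasFDerivAt.fun_mul (d l)).congr_of_eventuallyEq e).unique (d j)
  have k2 := congrArg (fun T : Cm n →L[ℂ] ℂ => T ξ) k
  simp only [add_apply, smul_apply, h j, smul_eq_mul, mul_zero, add_zero,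
    ContinuousLinearMap.comp_apply, ContinuousLinearMap.proj_apply] at k2
  rw [Pi.smul_apply, smul_eq_mul, ← k2]
  ring

end Alg

theorem alg : ALG := by
  intro n N X κ _ _ _ _ _ O t h
  refine ⟨?_, ?_⟩
  swap
  · rintro v ⟨b, x, hx, c, rfl⟩ c'
    exact ⟨b, x, hx, c' * c, smul_smul _ _ _⟩
  rcases isEmpty_or_nonempty X with hX | ⟨⟨x0⟩⟩
  · refine ⟨{1}, fun v => ⟨fun ⟨_, x, _⟩ => hX.elim x, fun k => ?_⟩⟩
    simpa using k 1 rfl
  obtain ⟨b0, hb0⟩ := h.cov x0
  obtain ⟨r, rfl⟩ : ∃ r, N = r + 1 := by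
    cases N with
    | zero => exact absurd (Subsingleton.elim _ _) (h.nz b0 x0 hb0)
    | succ r => exact ⟨r, rfl⟩
  obtain ⟨S⟩ := Pb.psex r
  have hol : ∀ b, ∀ y ∈ O b, ∀ a, Hol n (fun y => t b y a) y := fun b y hy a e he =>
    analyticAt_pi_iff.1 (h.hol b y hy e he) a
  obtain ⟨φ, h1, h2⟩ := S.lift h.opn h.cov hol h.nz h.chg
  have hE : Emb n r φ (range φ) := by
    refine ⟨h1, fun x x' k => ?_, fun x => ?_, rfl⟩
    · obtain ⟨b, hb⟩ := h.cov x
      obtain ⟨b', hb'⟩ := h.cov x'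
      rw [h2 b x hb, h2 b' x' hb', S.pt_eq_iff (h.nz b x hb) (h.nz b' x' hb')] at k
      exact h.inj b b' x x' hb hb' k
    · obtain ⟨b, hb⟩ := h.cov x
      obtain ⟨l, hl⟩ := Function.ne_iff.1 (h.nz b x hb)
      have hi : Imm n r (fun y => S.pt (t b y)) x := by
        refine (S.imm_iff (hol b x hb) hl (P277Z.at_chart x)).2 fun ξ hξ => ?_
        by_contra k
        have he := P277Z.at_chart (n := n) x
        have k1 := Alg.ratio (ξ := ξ) (l := l) (h.hol b x hb _ he) (by rwa [he.left_inv])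
          fun j => not_not.1 fun k' => k ⟨j, k'⟩
        rw [he.left_inv] at k1
        exact hξ (h.imm b x hb _ he ξ _ k1)
      refine hi.cng ?_
      filter_upwards [(h.opn b).mem_nhds hb] with y hy using (h2 b y hy).symm
  have hc : P301Z.Al.cone S (range φ) = cone O t := by
    ext v
    constructor
    · intro hv
      by_cases v0 : v = 0
      · exact ⟨b0, x0, hb0, 0, by rw [v0, zero_smul]⟩
      · obtain ⟨x, hx⟩ := hv.resolve_left v0
        obtain ⟨b, hb⟩ := h.cov x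
        rw [h2 b x hb] at hx
        exact ⟨b, x, hb, (S.pt_eq_iff v0 (h.nz b x hb)).1 hx.symm⟩
    · rintro ⟨b, x, hb, c, rfl⟩
      by_cases c0 : c = 0
      · exact Or.inl (by rw [c0, zero_smul])
      · exact Or.inr ⟨x, by rw [h2 b x hb, S.pt_smul c0 (h.nz b x hb)]⟩
  have hw := P301Z.Al.chow_of P301Z.Al.cone_an P301Z.Al.homp r S _ hE.an
  rw [hc] at hw
  exact ⟨P301Z.Al.J (cone O t), fun v => ⟨fun hv p hp => hp.2 v hv, (hw v).1⟩⟩

end Vale.Agent.P280Z.Gp
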