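import Vale.Agent.P280Z.Gp.Rep

/-!
# P280, block GP: the fixed point theorem of Borel
-/

open scoped Topology Matrix commutatorElement
open Vale.Agent.P272.K Set Module

noncomputable section

namespace Vale.Agent.P280Z.Gp

variable {N : ℕ} {C : Set (Cm N)} {S : Subgroup (SLn N)}

theorem ZCone.inter (h : ZCone C) (W : Submodule ℂ (Cm N)) : ZCone (C ∩ W) := by
  obtain ⟨I, hI⟩ := h.alg
  let p : (Cm N →ₗ[ℂ] ℂ) → MvPolynomial (Fin N) ℂ := fun l =>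
    ∑ i, .X i * .C (l fun j => if i = j then 1 else 0)
  have hp : ∀ l v, MvPolynomial.eval v (p l) = l v := fun l v => by
    simp only [p, map_sum, map_mul, MvPolynomial.eval_X, MvPolynomial.eval_C,
      l.pi_apply_eq_sum_univ v, smul_eq_mul]
  refine ⟨⟨I ∪ p '' (W.dualAnnihilator : Set (Dual ℂ (Cm N))), fun v => ?_⟩,
    fun v hv c => ⟨h.smul v hv.1 c, W.smul_mem c hv.2⟩⟩
  rw [mem_inter_iff, hI, SetLike.mem_coe,
    ← Subspace.forall_mem_dualAnnihilator_apply_eq_zero_iff W v]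
  refine ⟨fun H q hq => hq.elim (H.1 q) ?_, fun H => ⟨fun q hq => H q (.inl hq), fun l hl => ?_⟩⟩
  · rintro ⟨l, hl, rfl⟩
    rw [hp, H.2 l hl]
  · rw [← hp, H _ (.inr (mem_image_of_mem p hl))]

/-- the commutative case -/
theorem abl (fin : FIN) (hC : ZCone C) (hS : ZConn (S : Set (SLn N)))
    (hi : ∀ r ∈ S, ∀ v ∈ C, std r v ∈ C) (W : Submodule ℂ (Cm N)) (h0 : ∃ v ∈ C, v ∈ W ∧ v ≠ 0)
    (inv : ∀ r ∈ S, ∀ w ∈ W, std r w ∈ W)
    (cm : ∀ a ∈ S, ∀ b ∈ S, ∀ w ∈ W, std a (std b w) = std b (std a w)) :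
    ∃ v ∈ C, v ≠ 0 ∧ ∀ r ∈ S, ∃ c : ℂ, std r v = c • v := by
  induction hm : finrank ℂ W using Nat.strong_induction_on generalizing W with | _ m ih => ?_
  obtain ⟨v, hv, hvW, v0⟩ := h0
  have : Nontrivial W := Submodule.nontrivial_iff_ne_bot.2 (W.ne_bot_iff.2 ⟨v, hvW, v0⟩)
  obtain ⟨l₀, -, l0, hl⟩ := cev (E := Dual ℂ W)
    (fun r : S => ((std r.1).restrict (inv r r.2)).dualMap) ⊤ top_ne_bot (fun _ _ _ => trivial)
    fun a b l _ => LinearMap.ext fun w => congrArg l (Subtype.ext (cm b b.2 a a.2 w w.2))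
  obtain ⟨l, e⟩ := l₀.exists_extend
  have el : ∀ w : W, l w = l₀ w := fun w => LinearMap.congr_fun e w
  by_cases c : ∃ u ∈ C, u ∈ W ⊓ LinearMap.ker l ∧ u ≠ 0
  · refine ih _ (hm ▸ Submodule.finrank_lt_finrank_of_lt (s := W ⊓ LinearMap.ker l)
      (inf_le_left.lt_of_ne fun q => l0 (LinearMap.ext fun w => (el w).symm.trans (q.ge w.2).2)))
      (W ⊓ LinearMap.ker l) c (fun r hr w hw => ⟨inv r hr w hw.1, ?_⟩)
      (fun a ha b hb w hw => cm a ha b hb w hw.1) rfl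
    obtain ⟨a, ha⟩ := hl ⟨r, hr⟩
    have q : l₀ ⟨std r w, inv r hr w hw.1⟩ = a • l₀ ⟨w, hw.1⟩ := LinearMap.congr_fun ha ⟨w, hw.1⟩
    rw [← el, ← el, show l w = 0 from hw.2, smul_zero] at q
    exact q
  have nz : ∀ u ∈ C ∩ W, l u = 0 → u = 0 := fun u hu q => by_contra fun k => c ⟨u, hu.1, ⟨hu.2, q⟩, k⟩
  have nm : ∀ u ∈ C ∩ W, u ≠ 0 → (l u)⁻¹ • u ∈ {v | v ∈ C ∩ W ∧ l v = 1} := fun u hu k =>
    ⟨(hC.inter W).smul u hu _, by rw [map_smul, smul_eq_mul, inv_mul_cancel₀ (mt (nz u hu) k)]⟩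
  obtain ⟨hz, z1⟩ := nm v ⟨hv, hvW⟩ v0
  generalize (l v)⁻¹ • v = z at hz z1
  have z0 : z ≠ 0 := fun k => by simp [k] at z1
  have m : ∀ r ∈ S, std r z ∈ C ∩ W := fun r hr => ⟨hi r hr z hz.1, inv r hr z hz.2⟩
  have n0 : ∀ r ∈ S, l (std r z) ≠ 0 := fun r hr => mt (nz _ (m r hr)) ((rep_std S).ne hr z0)
  refine ⟨z, hz.1, z0, fun r hr => ⟨l (std r z), hS.const
    (L := fun y => {r | std r z = l (std r z) • y}) (fin N _ l (hC.inter W) nz)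
    (fun y => .of_pol (fun i => (Reg.id.lin (.proj i) z).sub ((Reg.id.lin l z).mul (.const (y i))))
      fun g => ?_)
    (fun g hg => ⟨_, nm _ (m g hg) ((rep_std S).ne hg z0), (smul_inv_smul₀ (n0 g hg) _).symm⟩)
    (fun g hg y y' q q' => smul_right_injective _ (n0 g hg) (Eq.trans (Eq.symm q) q')) S.one_mem
    (c := z) ?_ hr⟩⟩
  · simp only [mem_ofPred, std_apply, funext_iff, sub_eq_zero, LinearMap.proj_apply, Pi.smul_apply,
      smul_eq_mul]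
  · rw [mem_ofPred, (rep_std S).one, End.one_apply, z1, one_smul]

theorem bfp_of (fin : FIN) : BFP := fun N C R hC ⟨v, hv, v0⟩ hi hR hs => by
  simp only [← std_apply] at hi ⊢
  refine down hR hs (fun S => ∃ v ∈ C, v ≠ 0 ∧ ∀ r ∈ S, ∃ c : ℂ, std r v = c • v)
    ⟨v, hv, v0, fun r hr => ⟨1, ?_⟩⟩ fun S le hS ⟨v, hv, v0, k⟩ => ?_
  · rw [Subgroup.mem_bot.1 hr, (rep_std R).one, End.one_apply, one_smul]
  · obtain ⟨W, h1, h2, h3⟩ := (rep_std S).step hS v0 k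
    exact abl fin hC hS (fun r hr => hi r (le hr)) W ⟨v, hv, h1, v0⟩ h2 h3

end Vale.Agent.P280Z.Gp
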