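import Vale.Agent.P280Z.Gp.Rep
import Mathlib.Order.Zorn

/-!
# P280, block GP: Borel subgroups exist
-/

open scoped Topology Matrix commutatorElement
open Vale.Agent.P272.K Set Module

noncomputable section

namespace Vale.Agent.P280Z.Gp

variable {N : ℕ} {R S : Subgroup (SLn N)}

section
variable {E : Type} [AddCommGroup E] [Module ℂ E] {ρ : SLn N → End ℂ E}

theorem Rep.fix (h : Rep R ρ) (W : Submodule ℂ E) (inv : ∀ r ∈ R, ∀ w ∈ W, ρ r w ∈ W)
    (cm : ∀ a ∈ R, ∀ b ∈ R, ∀ w ∈ W, ρ a (ρ b w) = ρ b (ρ a w)) :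
    ∀ d ∈ ⁅R, R⁆, ∀ w ∈ W, ρ d w = w := by
  let K : Subgroup (SLn N) :=
    { carrier := {g | g ∈ R ∧ ∀ w ∈ W, ρ g w = w}
      one_mem' := ⟨R.one_mem, fun w _ => by rw [h.one, End.one_apply]⟩
      mul_mem' := fun ha hb => ⟨R.mul_mem ha.1 hb.1, fun w hw => by
        rw [h.mul _ ha.1 _ hb.1, hb.2 w hw, ha.2 w hw]⟩
      inv_mem' := fun ha => ⟨R.inv_mem ha.1, fun w hw => by
        rw [← ha.2 w hw, h.inv ha.1, ha.2 w hw]⟩ }
  have : ⁅R, R⁆ ≤ K := Subgroup.commutator_le.2 fun a ha b hb => by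
    have a' := R.inv_mem ha
    have b' := R.inv_mem hb
    refine ⟨R.mul_mem (R.mul_mem (R.mul_mem ha hb) a') b', fun w hw => ?_⟩
    have q : ∀ c ∈ R, ∀ u, ρ c (ρ c⁻¹ u) = u := fun c hc u => by
      simpa only [inv_inv] using h.inv (R.inv_mem hc) u
    rw [commutatorElement_def, h.mul _ (R.mul_mem (R.mul_mem ha hb) a') _ b',
      h.mul _ (R.mul_mem ha hb) _ a', h.mul _ ha _ hb,
      cm a ha b hb _ (inv _ a' _ (inv _ b' w hw)), q a ha, q b hb]
  exact fun d hd => (this hd).2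

theorem Rep.quot (h : Rep R ρ) (W : Submodule ℂ E) (inv : ∀ r ∈ R, ∀ w ∈ W, ρ r w ∈ W) :
    ∃ σ : SLn N → End ℂ (E ⧸ W), Rep R σ ∧ ∀ g ∈ R, ∀ w, σ g (W.mkQ w) = W.mkQ (ρ g w) := by
  have : ∀ g, ∃ T : End ℂ (E ⧸ W), g ∈ R → ∀ w, T (W.mkQ w) = W.mkQ (ρ g w) := fun g => by
    by_cases hg : g ∈ R
    · exact ⟨W.mapQ W (ρ g) (inv g hg), fun _ _ => rfl⟩
    · exact ⟨0, fun k => (hg k).elim⟩
  choose σ k using this
  refine ⟨σ, ⟨LinearMap.ext fun w => ?_, fun a ha b hb w => ?_, fun l w => ?_⟩, k⟩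
  all_goals obtain ⟨w, rfl⟩ := W.mkQ_surjective w
  · rw [k 1 R.one_mem, h.one, End.one_apply, End.one_apply]
  · rw [k _ (R.mul_mem ha hb), k b hb, k a ha, h.mul a ha b hb]
  · exact (h.pol (l ∘ₗ W.mkQ) w).imp fun f e => ⟨e.1, fun g hg => by
      rw [k g hg, ← e.2 g hg, LinearMap.comp_apply]⟩

end

theorem triv (hR : ZConn (R : Set (SLn N))) (hs : Group.IsSolvable R) (m : ℕ) :
    ∀ (E : Type) [AddCommGroup E] [Module ℂ E] [FiniteDimensional ℂ E] (ρ : SLn N → End ℂ E),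
      finrank ℂ E = m → Rep R ρ → ∀ d ∈ der R (2 * m), ∀ w, ρ d w = w := by
  induction m with
  | zero =>
    intro E _ _ _ ρ hm _ d _ w
    have := finrank_zero_iff.1 hm
    exact Subsingleton.elim _ _
  | succ m ih =>
    intro E _ _ _ ρ hm h
    have : Nontrivial E := nontrivial_of_finrank_eq_succ hm
    obtain ⟨v, v0, hv⟩ := h.lk hR hs
    have sc : ∀ r ∈ R, ∃ c : ℂ, ∀ w ∈ (ℂ ∙ v), ρ r w = c • w := fun r hr =>
      (hv r hr).imp fun c q w hw => by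
        obtain ⟨a, rfl⟩ := Submodule.mem_span_singleton.1 hw
        rw [map_smul, q, smul_comm]
    have inv : ∀ r ∈ R, ∀ w ∈ (ℂ ∙ v), ρ r w ∈ (ℂ ∙ v) := fun r hr w hw =>
      let ⟨c, q⟩ := sc r hr
      q w hw ▸ Submodule.smul_mem _ c hw
    obtain ⟨σ, h1, h2⟩ := h.quot _ inv
    have dm : finrank ℂ (E ⧸ (ℂ ∙ v)) = m := by
      have := Submodule.finrank_quotient_add_finrank (ℂ ∙ v)
      rw [finrank_span_singleton v0, hm] at this
      omega
    have l1 : der R (2 * m) ≤ R := der_le _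
    have l2 : der R (2 * m + 1) ≤ der R (2 * m) := der_le (R := der R (2 * m)) 1
    have f1 := (h.mono l1).fix (ℂ ∙ v) (fun r hr => inv r (l1 hr)) fun a ha b hb w hw => by
      obtain ⟨c, q⟩ := sc a (l1 ha)
      rw [q _ (inv b (l1 hb) w hw), q w hw, map_smul]
    have f2 : ∀ d ∈ der R (2 * m + 1), ∀ w, ρ d w - w ∈ (ℂ ∙ v) := fun d hd w =>
      (Submodule.Quotient.eq _).1 ((h2 d (l1 (l2 hd)) w).symm.trans (ih _ σ dm h1 d (l2 hd) _))
    refine fun d hd w => (h.mono (l2.trans l1)).fix ⊤ (fun _ _ _ _ => trivial)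
      (fun a ha b hb w _ => ?_) d hd w trivial
    have e1 := f1 a ha _ (f2 b hb w)
    have e2 := f1 b hb _ (f2 a ha w)
    rw [map_sub, sub_eq_iff_eq_add] at e1 e2
    rw [e1, e2]
    abel

theorem der_bot (hR : ZConn (R : Set (SLn N))) (hs : Group.IsSolvable R) : der R (2 * N) = ⊥ := by
  refine (Subgroup.eq_bot_iff_forall _).2 fun d hd => Subtype.ext (Matrix.toLin'.injective ?_)
  exact (LinearMap.ext (triv hR hs N _ std (finrank_fin_fun ℂ) (rep_std R) d hd)).trans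
    Matrix.toLin'_one.symm

theorem der_mono (h : R ≤ S) (k : ℕ) : der R k ≤ der S k := by
  induction k with
  | zero => exact h
  | succ k ih => exact Subgroup.commutator_mono ih ih

theorem der_sSup {c : Set (Subgroup (SLn N))} (h0 : c.Nonempty) (hc : DirectedOn (· ≤ ·) c) (k : ℕ) :
    ∀ d ∈ der (sSup c) k, ∃ R ∈ c, d ∈ der R k := by
  induction k with
  | zero => exact fun d hd => (Subgroup.mem_sSup_of_directedOn h0 hc).1 hd
  | succ k ih =>
    have : der (sSup c) (k + 1) ≤ sSup ((der · (k + 1)) '' c) :=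
      Subgroup.commutator_le.2 fun a ha b hb => by
        obtain ⟨A, hA, ha⟩ := ih a ha
        obtain ⟨B, hB, hb⟩ := ih b hb
        obtain ⟨D, hD, l1, l2⟩ := hc A hA B hB
        exact le_sSup (mem_image_of_mem (der · (k + 1)) hD)
          (Subgroup.commutator_mem_commutator (der_mono l1 k ha) (der_mono l2 k hb))
    intro d hd
    have dir : DirectedOn (· ≤ ·) ((der · (k + 1)) '' c) := by
      rintro _ ⟨A, hA, rfl⟩ _ ⟨B, hB, rfl⟩
      obtain ⟨D, hD, l1, l2⟩ := hc A hA B hB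
      exact ⟨_, mem_image_of_mem _ hD, der_mono l1 _, der_mono l2 _⟩
    obtain ⟨_, ⟨R, hR, rfl⟩, q⟩ := (Subgroup.mem_sSup_of_directedOn (h0.image _) dir).1 (this hd)
    exact ⟨R, hR, q⟩

theorem bor : BOR := fun N G => by
  refine (zorn_le_nonempty₀ {R : Subgroup (SLn N) | R ≤ G ∧ ZConn (R : Set (SLn N)) ∧
    Group.IsSolvable R} (fun c hc ch y hy => ⟨sSup c, ⟨sSup_le fun R hR => (hc hR).1, ?_,
      solv_iff.2 ⟨2 * N, (Subgroup.eq_bot_iff_forall _).2 fun d hd => ?_⟩⟩, fun z => le_sSup⟩) ⊥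
    ⟨bot_le, .single 1, solv_iff.2 ⟨0, rfl⟩⟩).imp fun _ h => h.2
  · have : ((sSup c : Subgroup (SLn N)) : Set (SLn N)) = ⋃₀ ((↑) '' c) := by
      ext g
      simp only [SetLike.mem_coe, Subgroup.mem_sSup_of_directedOn ⟨y, hy⟩ ch.directedOn,
        sUnion_image, mem_iUnion, exists_prop]
    rw [this]
    exact .sUnion 1 (forall_mem_image.2 fun R hR => ⟨(hc hR).2.1, R.one_mem⟩)
  · obtain ⟨R, hR, q⟩ := der_sSup ⟨y, hy⟩ ch.directedOn _ d hd
    rwa [der_bot (hc hR).2.1 (hc hR).2.2, Subgroup.mem_bot] at q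

end Vale.Agent.P280Z.Gp
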