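import Vale.Agent.P280Z.Gp.Sk
import Mathlib.Analysis.Analytic.Polynomial
import Mathlib.Analysis.SpecialFunctions.Exponential
import Mathlib.Analysis.Complex.TaylorSeries

/-!
# P280, block GP: the exponential of a tangent linear vector field preserves the cone
-/

open scoped ContDiff Topology Matrix
open Vale.Agent.P272.K Filter NormedSpace

noncomputable section

namespace Vale.Agent.P280Z.Gp

namespace ExpA

variable {n N : ℕ}

/-- evaluation of a matrix at a vector -/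
def evl (v : Cm N) : Matrix (Fin N) (Fin N) ℂ →L[ℂ] Cm N :=
  LinearMap.toContinuousLinearMap (Matrix.toLin'.toLinearMap.flip v)

open scoped Matrix.Norms.Operator in
theorem exp_deriv (A : Matrix (Fin N) (Fin N) ℂ) (v : Cm N) (s : ℂ) :
    HasDerivAt (fun s : ℂ => exp (s • A) *ᵥ v) (A *ᵥ (exp (s • A) *ᵥ v)) s := by
  rw [Matrix.mulVec_mulVec]
  exact (evl v).hasFDerivAt.comp_hasDerivAt s (hasDerivAt_exp_smul_const' A s)

open scoped Matrix.Norms.Operator in
theorem exp_strict (σ : ℂ × Cm n →L[ℂ] Matrix (Fin N) (Fin N) ℂ) (v : Cm N) :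
    HasStrictFDerivAt (fun q => exp (σ q) *ᵥ v) ((evl v).comp σ) 0 := by
  have h : HasStrictFDerivAt exp (1 : _ →L[ℂ] Matrix (Fin N) (Fin N) ℂ) (σ 0) := by
    rw [map_zero]
    exact hasStrictFDerivAt_exp_zero
  exact (evl v).hasStrictFDerivAt.comp 0 (h.comp 0 σ.hasStrictFDerivAt)

/-- the differential of `(λ, z) ↦ λ ψ(z)` -/
def dP (ψ : Cm n → Cm N) (c : ℂ) (z : Cm n) : ℂ × Cm n →L[ℂ] Cm N :=
  c • (fderiv ℂ ψ z).comp (.snd ℂ _ _) + (ContinuousLinearMap.fst ℂ _ _).smulRight (ψ z)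

theorem dP_apply (ψ : Cm n → Cm N) (c : ℂ) (z : Cm n) (q : ℂ × Cm n) :
    dP ψ c z q = c • fderiv ℂ ψ z q.2 + q.1 • ψ z := rfl

theorem psi_strict {ψ : Cm n → Cm N} {z : Cm n} (h : AnalyticAt ℂ ψ z) (c : ℂ) :
    HasStrictFDerivAt (fun q : ℂ × Cm n => q.1 • ψ q.2) (dP ψ c z) (c, z) := by
  have k := (hasStrictFDerivAt_fst (𝕜 := ℂ) (p := (c, z))).smul
    (h.hasStrictFDerivAt.comp (c, z) (hasStrictFDerivAt_snd (𝕜 := ℂ) (p := (c, z))))
  exact k

variable {X κ : Type} [TopologicalSpace X] [ChartedSpace (Cm n) X] {O : κ → Set X}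
  {t : κ → X → Cm N}

omit [ChartedSpace (Cm n) X] in
theorem near {e : Chart n X} {x : X} (hx : x ∈ e.source) {U : Set X} (hU : U ∈ 𝓝 x) :
    ∀ᶠ z in 𝓝 (e x), e.symm z ∈ U := e.tendsto_symm hx hU

theorem at_chart (x : X) : At (chartAt (Cm n) x) x := ⟨chart_mem_atlas _ x, mem_chart_source _ x⟩

theorem step (L : Lifts n O t) {A : Matrix (Fin N) (Fin N) ℂ} (hA : Tan n O t A) {f : Cm N → ℂ}
    (hf : Differentiable ℂ f) (h0 : ∀ w ∈ cone O t, f w = 0) :
    ∀ w ∈ cone O t, fderiv ℂ f w (A *ᵥ w) = 0 := by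
  rintro _ ⟨b, x, hx, c, rfl⟩
  have a := at_chart (n := n) x
  obtain ⟨ξ, c', k⟩ := hA b x hx _ a
  have h1 := (psi_strict (L.hol b x hx _ a) c).hasFDerivAt
  have h2 := (hf _).hasFDerivAt.comp _ h1
  have h3 := h2.unique ((hasFDerivAt_const (0 : ℂ) _).congr_of_eventuallyEq
    ((continuousAt_snd.eventually (near a.2 ((L.opn b).mem_nhds hx))).mono fun q hq =>
      h0 _ ⟨b, _, hq, q.1, rfl⟩))
  have h4 := congrArg (· (c * c', ξ)) h3
  simp only [ContinuousLinearMap.comp_apply, dP_apply, OpenPartialHomeomorph.left_inv _ a.2] at h4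
  rw [Matrix.mulVec_smul, k, smul_add, smul_smul]
  exact h4

end ExpA

open ExpA in
/-- row EXP -/
theorem exp : EXP := by
  intro n N X κ _ _ O t A L hZ hA v hv
  obtain ⟨I, hI⟩ := hZ.alg
  have H : ∀ (k : ℕ) (f : Cm N → ℂ), ContDiff ℂ ∞ f → (∀ w ∈ cone O t, f w = 0) →
      iteratedDeriv k (fun s : ℂ => f (NormedSpace.exp (s • A) *ᵥ v)) 0 = 0 := by
    intro k
    induction k with
    | zero => intro f _ h; simpa using h v hv
    | succ k ih =>
      intro f hf h
      have hd := hf.differentiable (by simp)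
      rw [iteratedDeriv_succ']
      erw [funext fun s => ((hd _).hasFDerivAt.comp_hasDerivAt s (exp_deriv A v s)).deriv]
      exact ih (fun w => fderiv ℂ f w (A *ᵥ w)) ((hf.fderiv_right (m := ∞) le_rfl).clm_apply
        (LinearMap.toContinuousLinearMap A.mulVecLin).contDiff) (step L hA hd h)
  refine (hI _).2 fun p hp => ?_
  have hf : ContDiff ℂ ∞ fun w : Cm N => MvPolynomial.eval w p :=
    (AnalyticOnNhd.eval_mvPolynomial p).contDiff
  have h := Complex.taylorSeries_eq_of_entire' (c := 0) (z := 1)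
    fun s => ((hf.differentiable (by simp) _).hasFDerivAt.comp_hasDerivAt s
      (exp_deriv A v s)).differentiableAt
  simp only [Function.comp_def, H _ _ hf fun w hw => (hI w).1 hw p hp, one_smul] at h
  simpa using h.symm

end Vale.Agent.P280Z.Gp
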