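import Vale.Agent.P280Z.Gp.Sk
import Mathlib.RingTheory.Nullstellensatz
import Mathlib.RingTheory.NoetherNormalization
import Mathlib.RingTheory.Ideal.GoingUp
import Mathlib.Topology.Algebra.MvPolynomial
import Mathlib.Analysis.Complex.Polynomial.Basic

/-!
# P280, block GP, row FIN: a projective variety which misses a hyperplane is finite
-/

open scoped Topology
open Vale.Agent.P272.K MvPolynomial

noncomputable section

namespace Vale.Agent.P280Z.Gp

namespace FinH

variable {N : ℕ}

/-- lying over: an integral extension of a polynomial ring hits all points -/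
lemma onto {s : ℕ} {J : Ideal (MvPolynomial (Fin N) ℂ)}
    (g : MvPolynomial (Fin s) ℂ →ₐ[ℂ] MvPolynomial (Fin N) ℂ ⧸ J) (hi : Function.Injective g)
    (hg : g.IsIntegral) (j : Fin s) {p : MvPolynomial (Fin N) ℂ}
    (hp : Ideal.Quotient.mk J p = g (X j)) (c : ℂ) : ∃ z ∈ zeroLocus ℂ J, aeval z p = c := by
  let := g.toRingHom.toAlgebra
  have : Algebra.IsIntegral (MvPolynomial (Fin s) ℂ) (MvPolynomial (Fin N) ℂ ⧸ J) := ⟨hg⟩
  obtain ⟨Q, hQ, hc⟩ := Ideal.exists_ideal_over_maximal_of_isIntegral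
    (S := MvPolynomial (Fin N) ℂ ⧸ J) (vanishingIdeal ℂ {fun _ : Fin s => c}) (by
      intro a ha
      rw [(map_eq_zero_iff g hi).1 ha]
      exact Ideal.zero_mem _)
  have hM := Ideal.comap_isMaximal_of_surjective (Ideal.Quotient.mk J)
    Ideal.Quotient.mk_surjective (K := Q)
  obtain ⟨z, hz⟩ := isMaximal_iff_eq_vanishingIdeal_singleton.1 hM
  refine ⟨z, fun q hq => ?_, ?_⟩
  · rw [← mem_vanishingIdeal_singleton_iff, ← hz, Ideal.mem_comap,
      Ideal.Quotient.eq_zero_iff_mem.2 hq]
    exact Q.zero_mem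
  · have h1 : X j - C c ∈ vanishingIdeal ℂ {fun _ : Fin s => c} := by
      rw [mem_vanishingIdeal_singleton_iff]
      simp
    rw [← hc, Ideal.mem_comap] at h1
    have h2 : p - C c ∈ vanishingIdeal ℂ {z} := by
      rw [← hz, Ideal.mem_comap, map_sub, hp]
      have h3 : Ideal.Quotient.mk J (C c) = g (C c) := (g.commutes c).symm
      rw [h3, ← map_sub]
      exact h1
    rw [mem_vanishingIdeal_singleton_iff] at h2
    simpa [sub_eq_zero] using h2

/-- bounded algebraic sets are finite -/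
lemma fin_of_bdd (J : Ideal (MvPolynomial (Fin N) ℂ))
    (hb : Bornology.IsBounded (zeroLocus ℂ J)) : (zeroLocus ℂ J).Finite := by
  by_cases hJ : J = ⊤
  · rw [hJ, zeroLocus_top]
    exact Set.finite_empty
  obtain ⟨s, -, g, hi, hg⟩ := exists_integral_inj_algHom_of_quotient J hJ
  rcases s with _ | s
  · have key : ∀ i, ∃ T : Set ℂ, T.Finite ∧ ∀ z ∈ zeroLocus ℂ J, z i ∈ T := fun i => by
      obtain ⟨q, hq, h0⟩ := hg (Ideal.Quotient.mk J (X i))
      set φ : MvPolynomial (Fin 0) ℂ →ₐ[ℂ] ℂ := aeval fun _ => 0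
      refine ⟨_, Polynomial.finite_setOfPred_isRoot (hq.map φ.toRingHom).ne_zero, fun z hz => ?_⟩
      set ev : (MvPolynomial (Fin N) ℂ ⧸ J) →ₐ[ℂ] ℂ := Ideal.Quotient.liftₐ J (aeval z) hz
      have h1 := congrArg ev.toRingHom h0
      rw [Polynomial.hom_eval₂, map_zero] at h1
      have h2 : ev.comp g = φ := algHom_ext fun i => i.elim0
      have h3 : ev.toRingHom.comp g.toRingHom = φ.toRingHom := by
        rw [← h2]
        rfl
      have h4 : ev.toRingHom (Ideal.Quotient.mk J (X i)) = z i := aeval_X (R := ℂ) z i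
      rw [h3, h4] at h1
      show (q.map φ.toRingHom).eval (z i) = 0
      rw [Polynomial.eval_map]
      exact h1
    choose T hT hz using key
    exact (Set.Finite.pi' hT).subset fun z h i => hz i z h
  · obtain ⟨p, hp⟩ := Ideal.Quotient.mk_surjective (g (X 0))
    have h1 := (hb.isCompact_closure.image (continuous_eval p)).isBounded
    refine absurd (h1.subset fun c _ => ?_) (NormedSpace.unbounded_univ ℂ ℂ)
    obtain ⟨z, hz, h2⟩ := onto g hi hg 0 hp c
    exact ⟨z, subset_closure hz, h2⟩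

/-- the slice of a closed cone by a hyperplane is bounded -/
lemma bdd {S : Set (Cm N)} (l : Cm N →ₗ[ℂ] ℂ) (hc : IsClosed S) (hs : ∀ v ∈ S, ∀ c : ℂ, c • v ∈ S)
    (h : ∀ v ∈ S, l v = 0 → v = 0) : Bornology.IsBounded {v | v ∈ S ∧ l v = 1} := by
  have hK : IsCompact (Metric.sphere (0 : Cm N) 1 ∩ S) := (isCompact_sphere _ _).inter_right hc
  have hl : Continuous fun v => ‖l v‖ := l.continuous_of_finiteDimensional.norm
  obtain ⟨m, hm, h1⟩ := hK.exists_forall_le' (a := 0) hl.continuousOn fun v hv =>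
    norm_pos_iff.2 fun h0 => by
      have h2 := hv.1
      rw [h v hv.2 h0] at h2
      simp at h2
  refine isBounded_iff_forall_norm_le.2 ⟨m⁻¹, fun v hv => ?_⟩
  have h2 : v ≠ 0 := fun h0 => by
    have h3 := hv.2
    rw [h0, map_zero] at h3
    exact zero_ne_one h3
  have h3 := norm_pos_iff.2 h2
  have h4 := h1 (((‖v‖⁻¹ : ℝ) : ℂ) • v) ⟨by
    rw [mem_sphere_zero_iff_norm, norm_smul, Complex.norm_real, norm_inv, norm_norm,
      inv_mul_cancel₀ h3.ne'], hs v hv.1 _⟩
  rw [map_smul, hv.2, smul_eq_mul, mul_one, Complex.norm_real, norm_inv, norm_norm] at h4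
  exact le_inv_of_le_inv₀ hm h4

end FinH

open FinH in
theorem fin : FIN := by
  intro N S l hS h
  obtain ⟨I, hI⟩ := hS.alg
  have hc : IsClosed S := by
    have : S = ⋂ p ∈ I, {v | eval v p = 0} := by
      ext v
      simp [hI]
    rw [this]
    exact isClosed_biInter fun p _ => isClosed_eq (continuous_eval p) continuous_const
  set P : MvPolynomial (Fin N) ℂ := ∑ i, C (l (Pi.single i 1)) * X i - 1 with hP
  have hv : ∀ v : Cm N, aeval v P = l v - 1 := fun v => by
    rw [l.pi_apply_eq_sum_univ v]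
    simp only [hP, map_sub, map_sum, map_mul, aeval_C, aeval_X, map_one, smul_eq_mul]
    congr 1
    refine Finset.sum_congr rfl fun i _ => ?_
    have : (fun j => if i = j then (1 : ℂ) else 0) = Pi.single i 1 := by
      ext j
      simp [Pi.single_apply, eq_comm]
    rw [mul_comm, this]
    rfl
  have hZ : {v | v ∈ S ∧ l v = 1} = zeroLocus ℂ (Ideal.span (insert P I)) := by
    rw [zeroLocus_span]
    ext v
    simp only [Set.mem_ofPred_eq, Set.forall_mem_insert, hv, sub_eq_zero, hI]
    exact and_comm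
  have hb := bdd l hc hS.smul h
  rw [hZ] at hb ⊢
  exact fin_of_bdd _ hb

end Vale.Agent.P280Z.Gp
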