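import Vale.Agent.P280Z.Gp.Orb
import Vale.Agent.P280Z.Gp.Alg
import Vale.Agent.P280Z.Gp.Lie
import Vale.Agent.P280Z.Gp.Full
import Vale.Agent.P277Z.Slc.Basic

/-!
# P280, block GP: homogeneous Fano manifolds are rational homogeneous
-/

open scoped Manifold ContDiff Topology Matrix
open Vale.Agent.P272.K Vale.Agent.P285.H281.FD

noncomputable section

namespace Vale.Agent.P280Z.Gp

theorem acan_lb (n k : ℕ) (X : Type) [TopologicalSpace X] [ChartedSpace (Cm n) X]
    [IsManifold 𝓘(ℂ, Cm n) ω X] : IsLB n (acan n X k) :=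
  have h : IsLB n (Bd.can n X) := P277Z.Slc.isLB_can
  { isOpen := h.isOpen
    cover := h.cover
    holo := fun i j e x he hi hj => ((h.holo i j e x he hi hj).inv (by
      rw [e.left_inv he.2]
      exact h.ne_zero i j x hi hj)).pow k
    ne_zero := fun i j x hi hj => pow_ne_zero k (inv_ne_zero (h.ne_zero i j x hi hj))
    cocycle := fun i j l x hi hj hl => (mul_pow _ _ k).symm.trans (congrArg (· ^ k)
      ((mul_inv _ _).symm.trans (congrArg (·⁻¹) (h.cocycle i j l x hi hj hl)))) }

/-- row GP -/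
theorem gp : GP := by
  intro n N k X _ _ _ _ _ _ s hs L hG
  obtain ⟨M, t, ht, L', sp, fl⟩ := full n N X (acan n X k) s (acan_lb n k X) hs L
  refine orb n M X _ _ t L' (fun b x hx e a v => ?_) (alg n M X _ _ t L') sp
  obtain ⟨ξ, hξ, rfl⟩ := hG e x a v
  choose A hA using fun i => fl _ (lie n k X ξ (fun b x => t b x i) hξ (ht i))
  have key : ∀ (b : Chart n X) x, At b x → ∀ e, At e x → Matrix.of A *ᵥ t b x =
      fderiv ℂ (fun z => t b (e.symm z)) (e x) (ξ e (e x)) + (-(k * dv (ξ b) (b x))) • t b x :=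
    fun b x hx e a => by
      have an := L'.hol b x hx b hx
      rw [chg n M X ξ (t b) hξ e b x a hx an]
      funext i
      have q := hA i b x hx
      rw [fderiv_apply an.differentiableAt] at q
      exact q.symm.trans ((sub_eq_add_neg _ _).trans (congrArg _ (neg_mul _ _).symm))
  exact ⟨.of A, _, fun b x hx e a => ⟨_, _, key b x hx e a⟩, key b x hx e a⟩

end Vale.Agent.P280Z.Gp
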