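import Vale.Agent.P280Z.Gp.Exp
import Mathlib.Analysis.Calculus.InverseFunctionTheorem.FDeriv

/-!
# P280, block GP: the orbits are open
-/

open scoped Topology Matrix
open Vale.Agent.P272.K Filter Set

noncomputable section

namespace Vale.Agent.P280Z.Gp

namespace OpnA

open ExpA

variable {n N : ℕ} {X κ : Type} [TopologicalSpace X] [ChartedSpace (Cm n) X] {O : κ → Set X}
  {t : κ → X → Cm N}

theorem cont (L : Lifts n O t) {b : κ} {x : X} (hx : x ∈ O b) : ContinuousAt (t b) x := by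
  have a := at_chart (n := n) x
  refine ((L.hol b x hx _ a).continuousAt.comp ((chartAt (Cm n) x).continuousAt a.2)).congr ?_
  filter_upwards [(chartAt (Cm n) x).open_source.mem_nhds a.2] with y hy
  simp only [Function.comp_apply, OpenPartialHomeomorph.left_inv _ hy]

theorem top [CompactSpace X] (L : Lifts n O t) {b : κ} {x : X} (hx : x ∈ O b) {U : Set X}
    (hU : U ∈ 𝓝 x) {Λ : Set ℂ} (hΛ : Λ ∈ 𝓝 1) :
    ∀ᶠ w in 𝓝 (t b x), w ∈ cone O t → ∃ y ∈ U, ∃ c ∈ Λ, w = c • t b y := by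
  have H := isCompact_univ.eventually_forall_of_forall_eventually (x₀ := t b x)
    (P := fun w y => ∀ b' (c : ℂ), y ∈ O b' → w = c • t b' y → y ∈ U ∧ ∃ c ∈ Λ, w = c • t b y)
    fun y _ => ?_
  · filter_upwards [H] with w hw
    rintro ⟨b', y, hy, c, k⟩
    exact ⟨y, hw y trivial b' c hy k⟩
  have c1 : ∀ i y, ContinuousAt (fun q : Cm N × X => q.1 i) (t b x, y) := fun i y =>
    ((continuous_apply i).comp continuous_fst).continuousAt
  have c2 : ∀ i {b' y}, y ∈ O b' → ContinuousAt (fun q : Cm N × X => t b' q.2 i) (t b x, y) :=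
    fun i _ _ hy => (continuous_apply i).continuousAt.comp ((cont L hy).comp continuousAt_snd)
  have c3 : ∀ {S y}, S ∈ 𝓝 y → ∀ᶠ q : Cm N × X in 𝓝 (t b x, y), q.2 ∈ S :=
    fun h => continuousAt_snd.eventually h
  by_cases e : y = x
  · subst e
    obtain ⟨i, hi⟩ := Function.ne_iff.1 (L.nz b y hx)
    have h1 := ((c1 i y).div (c2 i hx) hi).eventually (p := (· ∈ Λ))
      (by rwa [Pi.div_apply, div_self hi])
    filter_upwards [h1, (c2 i hx).eventually_ne hi, c3 hU, c3 ((L.opn b).mem_nhds hx)]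
      with q q1 q2 q3 q4 b' c hb k
    obtain ⟨c', k'⟩ := L.chg b' b q.2 hb q4
    rw [k', smul_smul] at k
    refine ⟨q3, c * c', ?_, k⟩
    rwa [Pi.div_apply, k, Pi.smul_apply, smul_eq_mul, mul_div_cancel_right₀ _ q2] at q1
  · obtain ⟨b0, h0⟩ := L.cov y
    obtain ⟨j, hj⟩ := Function.ne_iff.1 (L.nz b0 y h0)
    obtain ⟨i, hi⟩ := Function.ne_iff.1 fun k =>
      e (L.inj b b0 x y hx h0 ⟨t b x j / t b0 y j, k⟩).symm
    have h1 := (((c1 i y).mul (c2 j h0)).sub ((c1 j y).mul (c2 i h0))).eventually_ne (y := 0)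
      fun k => hi (by
        rw [Pi.smul_apply, smul_eq_mul, div_mul_eq_mul_div, eq_div_iff hj]
        exact sub_eq_zero.1 k)
    filter_upwards [h1, c3 ((L.opn b0).mem_nhds h0)] with q q1 q2 b' c hb k
    obtain ⟨c', k'⟩ := L.chg b' b0 q.2 hb q2
    refine absurd ?_ q1
    simp only [Pi.sub_apply, Pi.mul_apply, k, k', Pi.smul_apply, smul_eq_mul]
    ring

variable (n O t) in
/-- the tangent linear vector fields -/
def TanS : Submodule ℂ (Matrix (Fin N) (Fin N) ℂ) where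
  carrier := {A | Tan n O t A}
  zero_mem' := fun b x _ e _ => ⟨0, 0, by simp⟩
  add_mem' := fun hA hB b x hx e a =>
    let ⟨ξ, c, k⟩ := hA b x hx e a
    let ⟨ξ', c', k'⟩ := hB b x hx e a
    ⟨ξ + ξ', c + c', by rw [Matrix.add_mulVec, k, k', map_add, add_smul]; abel⟩
  smul_mem' := fun s A hA b x hx e a =>
    let ⟨ξ, c, k⟩ := hA b x hx e a
    ⟨s • ξ, s * c, by rw [Matrix.smul_mulVec, k, map_smul, smul_add, smul_smul]⟩

theorem one_mem : (1 : Matrix (Fin N) (Fin N) ℂ) ∈ TanS n O t :=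
  fun b x _ e _ => ⟨0, 1, by simp⟩

theorem sig (S : Submodule ℂ (Matrix (Fin N) (Fin N) ℂ)) (v : Cm N) (T : ℂ × Cm n →L[ℂ] Cm N)
    (h : ∀ q, ∃ A ∈ S, A *ᵥ v = T q) : ∃ σ : ℂ × Cm n →L[ℂ] Matrix (Fin N) (Fin N) ℂ,
      (∀ q, σ q ∈ S) ∧ (evl v).comp σ = T := by
  choose A hA k using h
  let B := Module.finBasis ℂ (ℂ × Cm n)
  refine ⟨LinearMap.toContinuousLinearMap (B.constr ℂ fun i => A (B i)), fun q => ?_,
    ContinuousLinearMap.coe_injective (B.ext fun i => ?_)⟩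
  · rw [LinearMap.coe_toContinuousLinearMap', B.constr_apply_fintype ℂ]
    exact S.sum_mem fun i _ => S.smul_mem _ (hA _)
  · simpa [evl] using k (B i)

end OpnA

open ExpA OpnA in
/-- row OPN -/
theorem opn : OPN := by
  intro n N X κ _ _ _ O t L hG hE b x hx W hW
  have a := at_chart (n := n) x
  set e := chartAt (Cm n) x
  have hψ := psi_strict (L.hol b x hx e a) 1
  set T := dP (fun z => t b (e.symm z)) 1 (e x)
  have hT : ∀ q, T q = fderiv ℂ (fun z => t b (e.symm z)) (e x) q.2 + q.1 • t b x := fun q => by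
    rw [dP_apply, one_smul, e.left_inv a.2]
  obtain ⟨g, hg⟩ := T.toLinearMap.exists_leftInverse_of_injective
    (LinearMap.ker_eq_bot'.2 fun q hq => by
      have h1 := (hT q).symm.trans hq
      have h2 := L.imm b x hx e a q.2 (-q.1) (by rw [neg_smul, eq_neg_iff_add_eq_zero, h1])
      rw [h2, map_zero, zero_add] at h1
      exact Prod.ext ((smul_eq_zero.1 h1).resolve_right (L.nz b x hx)) h2)
  obtain ⟨σ, hσ, hs⟩ := sig (TanS n O t) (t b x) T fun q => by
    obtain ⟨A, c, hA, k⟩ := hG b x hx e a q.2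
    refine ⟨A + (q.1 - c) • 1, add_mem hA (Submodule.smul_mem _ _ one_mem), ?_⟩
    rw [Matrix.add_mulVec, k, hT, Matrix.smul_mulVec, Matrix.one_mulVec, sub_smul]
    abel
  have hF := hs ▸ exp_strict σ (t b x)
  let π := LinearMap.toContinuousLinearMap g
  have hπ : π.comp T = ContinuousLinearEquiv.refl ℂ (ℂ × Cm n) :=
    ContinuousLinearMap.coe_injective hg
  have h1 := hπ ▸ π.hasStrictFDerivAt.comp _ hψ
  have h2 := (hπ ▸ π.hasStrictFDerivAt.comp _ hF).map_nhds_eq_of_equiv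
  have F0 : NormedSpace.exp (σ 0) *ᵥ t b x = t b x := by simp
  obtain ⟨Λ, hΛ, Z, hZ, hM⟩ := mem_nhds_prod_iff.1 h1.eventually_left_inverse
  have hU : e.source ∩ e ⁻¹' Z ∈ 𝓝 x :=
    inter_mem (e.open_source.mem_nhds a.2) (e.continuousAt a.2 hZ)
  have h3 := (hF.continuousAt.eventually (F0.symm ▸ top L hx hU hΛ)).and
    (σ.continuous.continuousAt.eventually (p := (· ∈ W)) (by rwa [map_zero]))
  have h4 := image_mem_map (m := fun q => π (NormedSpace.exp (σ q) *ᵥ t b x)) h3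
  rw [h2, F0] at h4
  filter_upwards [hU, (π.continuous.continuousAt.comp (cont L hx)).eventually h4] with y y1 y2
  obtain ⟨q, ⟨q1, q2⟩, k⟩ := y2
  obtain ⟨y', y3, c, hc, k'⟩ := q1 (hE _ (hσ q) _ ⟨b, x, hx, 1, (one_smul _ _).symm⟩)
  refine ⟨σ q, q2, hσ q, ?_⟩
  have m1 := hM (mk_mem_prod hc y3.2)
  have m2 := hM (mk_mem_prod (mem_of_mem_nhds hΛ) y1.2)
  simp only [mem_ofPred_eq, e.left_inv y3.1, e.left_inv y1.1, one_smul] at m1 m2 k
  rw [← k', k, Function.comp_apply, m2, Prod.mk.injEq] at m1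
  rw [k', ← m1.1, one_smul, e.injOn y1.1 y3.1 m1.2]

end Vale.Agent.P280Z.Gp
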