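import Vale.Agent.P280Z.Gp.Bfp
import Vale.Agent.P280Z.Gp.Bor
import Vale.Agent.P280Z.Gp.Opn
import Vale.Agent.P280Z.Gp.Fin
import Mathlib.Topology.LocallyConstant.Basic

/-!
# P280, block GP: the group of the cone is semisimple and transitive
-/

open scoped Topology Matrix
open Vale.Agent.P272.K Set Module

noncomputable section

namespace Vale.Agent.P280Z.Gp

variable {N : ℕ} {C : Set (Cm N)} {φ : SLn N → SLn N}

theorem Reg.ev (h : Reg φ) (v : Cm N) (p : MvPolynomial (Fin N) ℂ) :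
    Pol fun g => MvPolynomial.eval (std (φ g) v) p := by
  induction p using MvPolynomial.induction_on with
  | C c => simpa only [MvPolynomial.eval_C] using Pol.const c
  | add p q hp hq => simpa only [map_add] using hp.add hq
  | mul_X p a hp =>
    simpa only [map_mul, MvPolynomial.eval_X, std_apply, LinearMap.proj_apply] using
      hp.mul (h.lin (.proj a) v)

theorem ZCone.maps (hC : ZCone C) (h : Reg φ) : ZClosed {g | ∀ v ∈ C, std (φ g) v ∈ C} := by
  obtain ⟨I, hI⟩ := hC.alg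
  refine .of_pol (ι := C × I) (fun q => h.ev q.1.1 q.2.1) fun g => ?_
  exact ⟨fun k q => (hI _).1 (k _ q.1.2) _ q.2.2, fun k v hv => (hI _).2 fun p hp =>
    k (⟨v, hv⟩, ⟨p, hp⟩)⟩

theorem std_mul (a b : SLn N) (v : Cm N) : std (a * b) v = std a (std b v) :=
  (rep_std ⊤).mul a trivial b trivial v

theorem std_one (v : Cm N) : std (1 : SLn N) v = v := by rw [(rep_std ⊤).one, End.one_apply]

theorem std_inv (a : SLn N) (v : Cm N) : std a⁻¹ (std a v) = v := (rep_std ⊤).inv trivial v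

/-- the stabiliser of a set of vectors -/
def stab (C : Set (Cm N)) : Subgroup (SLn N) where
  carrier := {g | ∀ v ∈ C, std g v ∈ C} ∩ {g | ∀ v ∈ C, std g⁻¹ v ∈ C}
  one_mem' := ⟨fun v hv => by rwa [std_one], fun v hv => by rwa [inv_one, std_one]⟩
  mul_mem' := fun ha hb => ⟨fun v hv => by rw [std_mul]; exact ha.1 _ (hb.1 v hv),
    fun v hv => by rw [mul_inv_rev, std_mul]; exact hb.2 _ (ha.2 v hv)⟩
  inv_mem' := fun ha => ⟨ha.2, fun v hv => by rw [inv_inv]; exact ha.1 v hv⟩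

theorem ZCone.stab (hC : ZCone C) : ZClosed (stab C : Set (SLn N)) :=
  (hC.maps .id).inter (hC.maps Reg.id.inv)

theorem pos_of_ne {v : Cm N} (h : v ≠ 0) : 0 < N := (Function.ne_iff.1 h).elim fun i _ => i.pos

theorem mem_line {g : SLn N} {v : Cm N} (v0 : v ≠ 0) :
    g ∈ stab (univ ∩ (ℂ ∙ v : Submodule ℂ (Cm N))) ↔ ∃ c : ℂ, std g v = c • v := by
  have k : ∀ (g : SLn N) (c : ℂ), std g v = c • v →
      ∀ w ∈ univ ∩ ((ℂ ∙ v : Submodule ℂ (Cm N)) : Set (Cm N)),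
        std g w ∈ univ ∩ ((ℂ ∙ v : Submodule ℂ (Cm N)) : Set (Cm N)) := fun g c q w hw => by
    obtain ⟨a, rfl⟩ := Submodule.mem_span_singleton.1 hw.2
    exact ⟨trivial, Submodule.mem_span_singleton.2 ⟨a * c, by rw [map_smul, q, smul_smul]⟩⟩
  refine ⟨fun h => (Submodule.mem_span_singleton.1
    (h.1 v ⟨trivial, Submodule.mem_span_singleton_self v⟩).2).imp fun _ => Eq.symm,
    fun ⟨c, q⟩ => ⟨k g c q, k g⁻¹ c⁻¹ ?_⟩⟩
  have c0 : c ≠ 0 := fun e => (rep_std ⊤).ne (g := g) trivial v0 (by rw [q, e, zero_smul])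
  rw [eq_inv_smul_iff₀ c0, ← map_smul, ← q, std_inv]

/-- a connected group which is transitive on a nondegenerate projective variety is semisimple -/
theorem semis (hC : ZCone C) (sp : Submodule.span ℂ C = ⊤) (h0 : ∃ v ∈ C, v ≠ 0)
    {G : Subgroup (SLn N)} (cl : ZClosed (G : Set (SLn N))) (cn : ZConn (G : Set (SLn N)))
    (le : G ≤ stab C) (tr : ∀ v ∈ C, v ≠ 0 → ∀ w ∈ C, ∃ g ∈ G, ∃ c : ℂ, w = c • std g v) :
    IsSemisimple G := by
  refine ⟨cl, cn, fun R hR nm rc rs => ?_⟩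
  obtain ⟨v, hv, v0, k⟩ := bfp_of fin N C R hC h0
    (fun r hr v hv => std_apply r v ▸ (le (hR hr)).1 v hv) rc rs
  simp only [← std_apply] at k
  have sc : ∀ d ∈ R, ∀ c : ℂ, std d v = c • v → d.1 = c • 1 := fun d hd c q => by
    have e := (rep_std G).conj cn v0 (hR hd)
      (fun g hg => k _ (by simpa only [inv_inv] using nm _ (G.inv_mem hg) d hd)) q
    refine Matrix.toLin'.injective (LinearMap.ext_on sp fun w hw => ?_)
    obtain ⟨g, hg, a, rfl⟩ := tr v hv v0 w hw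
    rw [map_smul Matrix.toLin', Matrix.toLin'_one, LinearMap.smul_apply, LinearMap.id_apply]
    show std d _ = _
    rw [map_smul, (rep_std G).cj hg (hR hd), e g hg, map_smul, smul_comm]
  refine (Subgroup.eq_bot_iff_forall _).2 fun d hd => Subtype.ext ((sc d hd 1 ((rep_std R).ev rc .id
    (fun _ h => h) v0 (Polynomial.nthRoots N (1 : ℂ)).toFinset.finite_toSet
    (fun g hg => (k g hg).imp fun c q => ⟨?_, q⟩) R.one_mem (by rw [std_one, one_smul]) d hd)).trans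
    (one_smul _ _))
  have := g.2
  rw [sc g hg c q, Matrix.det_smul, Matrix.det_one, mul_one, Fintype.card_fin] at this
  simpa [Polynomial.mem_nthRoots (pos_of_ne v0)] using this

open scoped Matrix.Norms.Operator in
/-- small exponentials lie in the identity component, up to scalars -/
theorem sl_exp (hC : ZCone C) (hN : 0 < N) (S : Submodule ℂ (Matrix (Fin N) (Fin N) ℂ))
    (hS : ∀ A ∈ S, ∀ v ∈ C, NormedSpace.exp A *ᵥ v ∈ C) :
    ∃ W ∈ 𝓝 (0 : Matrix (Fin N) (Fin N) ℂ), ∀ A ∈ W, A ∈ S → ∃ g ∈ idc (stab C), ∃ c : ℂ, c ≠ 0 ∧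
      ∀ v, std g v = c • NormedSpace.exp A *ᵥ v := by
  have ce : Continuous fun A : Matrix (Fin N) (Fin N) ℂ => NormedSpace.exp A :=
    NormedSpace.exp_continuous
  have u : ∀ A : Matrix (Fin N) (Fin N) ℂ, IsUnit (NormedSpace.exp A).det := fun A =>
    (Matrix.isUnit_iff_isUnit_det _).1 (Matrix.isUnit_exp A)
  let l : Matrix (Fin N) (Fin N) ℂ → ℂ := fun A =>
    Complex.exp (-Complex.log (NormedSpace.exp A).det / N)
  let g : Matrix (Fin N) (Fin N) ℂ → SLn N := fun A => ⟨l A • NormedSpace.exp A, by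
    rw [Matrix.det_smul, Fintype.card_fin, ← Complex.exp_nat_mul,
      mul_div_cancel₀ _ (Nat.cast_ne_zero.2 hN.ne'), Complex.exp_neg,
      Complex.exp_log (u A).ne_zero, inv_mul_cancel₀ (u A).ne_zero]⟩
  have hg : ∀ A v, std (g A) v = l A • NormedSpace.exp A *ᵥ v := fun A v => by
    rw [std_apply, Matrix.smul_mulVec]
  have l0 : ∀ A, l A ≠ 0 := fun A => Complex.exp_ne_zero _
  obtain ⟨ε, ε0, hε⟩ := Metric.mem_nhds_iff.1 ((ce.matrix_det.continuousAt
    (x := (0 : Matrix (Fin N) (Fin N) ℂ))).eventually (Complex.isOpen_slitPlane.mem_nhds (by simp)))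
  have : PreconnectedSpace ↥(Metric.ball (0 : Matrix (Fin N) (Fin N) ℂ) ε ∩ S) :=
    isPreconnected_iff_preconnectedSpace.1
      ((convex_ball 0 ε).inter (S.restrictScalars ℝ).convex).isPreconnected
  have c1 := ce.comp (continuous_subtype_val
    (p := (· ∈ Metric.ball (0 : Matrix (Fin N) (Fin N) ℂ) ε ∩ S)))
  refine ⟨_, Metric.ball_mem_nhds 0 ε0, fun A h1 h2 => ⟨g A, sub_idc (G := stab C)
    (ZConn.range (γ := fun A : ↥(Metric.ball (0 : Matrix (Fin N) (Fin N) ℂ) ε ∩ S) => g A)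
      (((c1.matrix_det.clog fun A => hε A.2.1).neg.div_const _).cexp.smul c1))
    ⟨⟨0, Metric.mem_ball_self ε0, S.zero_mem⟩, Subtype.ext (by simp [g, l])⟩
    (range_subset_iff.2 fun A => ⟨fun v hv => ?_, fun v hv => ?_⟩) ⟨⟨A, h1, h2⟩, rfl⟩,
    l A, l0 A, hg A⟩⟩
  · rw [hg]
    exact hC.smul _ (hS _ A.2.2 v hv) _
  · have e : std (g A) ((l A)⁻¹ • NormedSpace.exp (-A.1) *ᵥ v) = v := by
      rw [hg, Matrix.mulVec_smul, smul_inv_smul₀ (l0 _), Matrix.mulVec_mulVec, Matrix.exp_neg,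
        Matrix.mul_nonsing_inv _ (u _), Matrix.one_mulVec]
    rw [← e, std_inv]
    exact hC.smul _ (hS _ (S.neg_mem A.2.2) v hv) _

theorem trans {n : ℕ} {X κ : Type} [TopologicalSpace X] [CompactSpace X] [ConnectedSpace X]
    [ChartedSpace (Cm n) X] {O : κ → Set X} {t : κ → X → Cm N} (L : Lifts n O t)
    (hG : LinGen n O t) (hC : ZCone (cone O t)) : ∀ v ∈ cone O t, v ≠ 0 → ∀ w ∈ cone O t,
      ∃ g ∈ idc (stab (cone O t)), ∃ c : ℂ, w = c • std g v := by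
  intro v hv v0
  have hE := fun A => exp n N X κ O t A L hC
  obtain ⟨W, hW, k⟩ := sl_exp hC (pos_of_ne v0) (OpnA.TanS n O t) hE
  let Q : X → Prop := fun y => ∀ b, y ∈ O b → ∃ g ∈ idc (stab (cone O t)), ∃ c : ℂ,
    t b y = c • std g v
  have one : ∀ b y, y ∈ O b → (∃ g ∈ idc (stab (cone O t)), ∃ c : ℂ, t b y = c • std g v) → Q y := by
    rintro b y hy ⟨g, hg, c, e⟩ b' hy'
    obtain ⟨a, e'⟩ := L.chg b' b y hy' hy
    exact ⟨g, hg, a * c, by rw [e', e, smul_smul]⟩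
  have lc : IsLocallyConstant Q := (IsLocallyConstant.iff_eventually_eq Q).2 fun y => by
    obtain ⟨b, hy⟩ := L.cov y
    filter_upwards [opn n N X κ O t L hG hE b y hy W hW, (L.opn b).mem_nhds hy] with z ⟨A, h1, h2, e⟩ hz
    obtain ⟨g, hg, c, c0, q⟩ := k A h1 h2
    have e1 := q (t b y)
    rw [e] at e1
    refine propext ⟨fun h => one b y hy ?_, fun h => one b z hz ?_⟩
    · obtain ⟨g', hg', a, e'⟩ := h b hz
      exact ⟨g⁻¹ * g', mul_mem (inv_mem hg) hg', c * a, by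
        rw [std_mul, ← std_inv g (t b y), e1, e', smul_smul, map_smul]⟩
    · obtain ⟨g', hg', a, e'⟩ := h b hy
      exact ⟨g * g', mul_mem hg hg', c⁻¹ * a, by
        rw [std_mul, mul_smul, ← map_smul, ← e', e1, inv_smul_smul₀ c0]⟩
  obtain ⟨b, x, hx, c, rfl⟩ := hv
  have q : Q x := one b x hx ⟨1, one_mem _, c⁻¹, by
    rw [std_one, inv_smul_smul₀ (left_ne_zero_of_smul v0)]⟩
  rintro _ ⟨b', y, hy, a, rfl⟩
  obtain ⟨g, hg, a', e⟩ := (lc.apply_eq_of_preconnectedSpace x y ▸ q : Q y) b' hy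
  exact ⟨g, hg, a * a', by rw [e, smul_smul]⟩

/-- row ORB -/
theorem orb : ORB := by
  intro n N X κ _ _ _ _ O t L hG hC sp
  have tr := trans L hG hC
  choose b hb using L.cov
  have h0 : ∃ v ∈ cone O t, v ≠ 0 :=
    let x : X := Classical.arbitrary X
    ⟨_, ⟨b x, x, hb x, 1, (one_smul _ _).symm⟩, L.nz _ _ (hb x)⟩
  have cl := idc_closed hC.stab
  obtain ⟨B, hB⟩ := bor N (idc (stab (cone O t)))
  obtain ⟨v, hv, v0, k⟩ := bfp_of fin N _ B hC h0
    (fun r hr v hv => std_apply r v ▸ (idc_le (hB.prop.1 hr)).1 v hv) hB.prop.2.1 hB.prop.2.2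
  have zu : ZCone (univ : Set (Cm N)) := ⟨⟨∅, fun _ => by simp⟩, fun _ _ _ => trivial⟩
  refine ⟨N, idc (stab (cone O t)), idc (stab (cone O t)) ⊓ stab (univ ∩ (ℂ ∙ v : Submodule ℂ _)),
    fun x => .mk ℂ (t (b x) x) (L.nz _ _ (hb x)), v, semis hC sp h0 cl idc_conn idc_le tr,
    ⟨cl.inter (zu.inter _).stab, inf_le_left, B, hB, le_inf hB.prop.1 fun r hr => ?_⟩,
    ⟨fun x y e => ?_, fun e x a => ⟨fun z => t (b x) (e.symm z), L.hol _ x (hb x) e a, ?_, ?_⟩⟩,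
    v0, fun g => ?_, fun w w0 => ⟨?_, ?_⟩⟩
  · rw [mem_line v0, std_apply]
    exact k r hr
  · exact L.inj _ _ x y (hb x) (hb y)
      (((Projectivization.mk_eq_mk_iff' ℂ _ _ _ _).1 e).imp fun _ => Eq.symm)
  · filter_upwards [ExpA.near a.2 ((L.opn _).mem_nhds (hb x))] with z hz
    exact ⟨L.nz _ _ hz, (Projectivization.mk_eq_mk_iff' ℂ _ _ _ _).2
      ((L.chg _ _ _ (hb _) hz).imp fun _ => Eq.symm)⟩
  · simp only [e.left_inv a.2]
    exact L.imm _ x (hb x) e a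
  · rw [Subgroup.mem_inf, mem_line v0, std_apply]
  · rintro ⟨x, e⟩
    obtain ⟨c, e⟩ := (Projectivization.mk_eq_mk_iff' ℂ _ _ _ _).1 e.symm
    simpa only [std_apply] using tr v hv v0 w ⟨_, x, hb x, c, e.symm⟩
  · rintro ⟨g, hg, c, e⟩
    obtain ⟨b', x, hx, a, e'⟩ := hC.smul _ ((idc_le hg).1 v hv) c
    obtain ⟨a', e''⟩ := L.chg b' _ x hx (hb x)
    refine ⟨x, ((Projectivization.mk_eq_mk_iff' ℂ _ _ _ _).2 ⟨a * a', ?_⟩).symm⟩
    rw [mul_smul, ← e'', ← e', std_apply, e]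

end Vale.Agent.P280Z.Gp
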