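import Vale.Agent.P280Z.Gp.Zar
import Mathlib.LinearAlgebra.Eigenspace.Triangularizable
import Mathlib.LinearAlgebra.Eigenspace.Minpoly
import Mathlib.Analysis.Complex.Polynomial.Basic
import Mathlib.LinearAlgebra.Dual.Lemmas

/-!
# P280, block GP: polynomial representations, the theorem of Lie and Kolchin
-/

open scoped Topology Matrix commutatorElement
open Vale.Agent.P272.K Set Module

noncomputable section

namespace Vale.Agent.P280Z.Gp

variable {N : ℕ} {E : Type} [AddCommGroup E] [Module ℂ E]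

/-- polynomial representations of a subgroup -/
structure Rep (R : Subgroup (SLn N)) (ρ : SLn N → End ℂ E) : Prop where
  one : ρ 1 = 1
  mul : ∀ a ∈ R, ∀ b ∈ R, ∀ w, ρ (a * b) w = ρ a (ρ b w)
  pol : ∀ (l : E →ₗ[ℂ] ℂ) (w : E), ∃ f, Pol f ∧ ∀ g ∈ R, l (ρ g w) = f g

variable {R S : Subgroup (SLn N)} {ρ : SLn N → End ℂ E} {φ : SLn N → SLn N} {A : Set (SLn N)}
  {v : E}

theorem Rep.mono (h : Rep R ρ) (k : S ≤ R) : Rep S ρ :=
  ⟨h.one, fun a ha b hb => h.mul a (k ha) b (k hb), fun l w =>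
    (h.pol l w).imp fun _ e => ⟨e.1, fun g hg => e.2 g (k hg)⟩⟩

theorem Rep.inv (h : Rep R ρ) {g : SLn N} (hg : g ∈ R) (w : E) : ρ g⁻¹ (ρ g w) = w := by
  rw [← h.mul _ (R.inv_mem hg) _ hg, inv_mul_cancel, h.one, End.one_apply]

theorem Rep.ne (h : Rep R ρ) {g : SLn N} (hg : g ∈ R) (hv : v ≠ 0) : ρ g v ≠ 0 := fun k =>
  hv (by rw [← h.inv hg v, k, map_zero])

theorem Rep.cj (h : Rep R ρ) {g d : SLn N} (hg : g ∈ R) (hd : d ∈ R) (w : E) :
    ρ d (ρ g w) = ρ g (ρ (g⁻¹ * d * g) w) := by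
  rw [← h.mul _ hd _ hg, ← h.mul _ hg _ (R.mul_mem (R.mul_mem (R.inv_mem hg) hd) hg), mul_assoc,
    mul_inv_cancel_left]

/-- eigenvalues with finitely many values are constant on connected sets -/
theorem Rep.ev (h : Rep R ρ) (hA : ZConn A) (hφ : Reg φ) (hR : ∀ g ∈ A, φ g ∈ R) (hv : v ≠ 0)
    {F : Set ℂ} (hF : F.Finite) (k : ∀ g ∈ A, ∃ c ∈ F, ρ (φ g) v = c • v) {a : SLn N} (ha : a ∈ A)
    {c : ℂ} (hc : ρ (φ a) v = c • v) : ∀ g ∈ A, ρ (φ g) v = c • v := by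
  choose f f1 f2 using fun l => h.pol l v
  have e : ∀ g ∈ A, ∀ c : ℂ, (∀ l, f l (φ g) - l (c • v) = 0) ↔ ρ (φ g) v = c • v :=
    fun g hg c => by
      rw [← sub_eq_zero (a := ρ (φ g) v), ← forall_dual_apply_eq_zero_iff ℂ]
      exact forall_congr' fun l => by rw [map_sub, f2 l _ (hR g hg)]
  refine fun g hg => (e g hg c).1 (hA.const (L := fun c => {g | ∀ l, f l (φ g) - l (c • v) = 0}) hF
    (fun c => .of_pol (fun l => ((f1 l).comp hφ).sub (.const (l (c • v)))) fun _ => Iff.rfl)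
    (fun g hg => (k g hg).imp fun c q => ⟨q.1, (e g hg c).2 q.2⟩)
    (fun g hg c c' q q' => smul_left_injective ℂ hv (((e g hg c).1 q).symm.trans ((e g hg c').1 q')))
    ha ((e a ha c).2 hc) hg)

variable [FiniteDimensional ℂ E]

theorem Rep.conj (h : Rep R ρ) (hR : ZConn (R : Set (SLn N))) (hv : v ≠ 0) {d : SLn N}
    (hd : d ∈ R) (k : ∀ g ∈ R, ∃ c : ℂ, ρ (g⁻¹ * d * g) v = c • v) {c : ℂ} (hc : ρ d v = c • v) :
    ∀ g ∈ R, ρ (g⁻¹ * d * g) v = c • v := by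
  refine h.ev hR ((Reg.id.inv.mul (.const d)).mul .id)
    (fun g hg => R.mul_mem (R.mul_mem (R.inv_mem hg) hd) hg) hv (End.finite_hasEigenvalue (ρ d))
    (fun g hg => (k g hg).imp fun c q => ⟨?_, q⟩) R.one_mem (by simpa using hc)
  exact End.hasEigenvalue_of_hasEigenvector (x := ρ g v)
    ⟨End.mem_eigenspace_iff.2 (by rw [h.cj hg hd, q, map_smul]), h.ne hg hv⟩

/-- the inductive step -/
theorem Rep.step (h : Rep R ρ) (hR : ZConn (R : Set (SLn N))) (hv : v ≠ 0)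
    (k : ∀ d ∈ ⁅R, R⁆, ∃ c : ℂ, ρ d v = c • v) : ∃ W : Submodule ℂ E, v ∈ W ∧
      (∀ r ∈ R, ∀ w ∈ W, ρ r w ∈ W) ∧ ∀ a ∈ R, ∀ b ∈ R, ∀ w ∈ W, ρ a (ρ b w) = ρ b (ρ a w) := by
  have le : ⁅R, R⁆ ≤ R := der_le 1
  let W : Submodule ℂ E :=
    { carrier := {w | ∀ d ∈ ⁅R, R⁆, ∀ c : ℂ, ρ d v = c • v → ρ d w = c • w}
      add_mem' := fun ha hb d hd c q => by rw [map_add, ha d hd c q, hb d hd c q, smul_add]
      zero_mem' := fun d _ c _ => by rw [map_zero, smul_zero]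
      smul_mem' := fun a w ha d hd c q => by rw [map_smul, ha d hd c q, smul_comm] }
  have nm : ∀ g ∈ R, ∀ d ∈ ⁅R, R⁆, g⁻¹ * d * g ∈ ⁅R, R⁆ := fun g hg d hd => by
    have := (⁅R, R⁆).mul_mem (Subgroup.commutator_mem_commutator (R.inv_mem hg) (le hd)) hd
    simpa only [commutatorElement_def, inv_inv, inv_mul_cancel_right] using this
  have inv : ∀ r ∈ R, ∀ w ∈ W, ρ r w ∈ W := fun r hr w hw d hd c q => by
    rw [h.cj hr (le hd), hw _ (nm r hr d hd) c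
      (h.conj hR hv (le hd) (fun g hg => k _ (nm g hg d hd)) q r hr), map_smul]
  have hvW : v ∈ W := fun _ _ _ q => q
  let σ : R →* End ℂ W :=
    { toFun := fun r => (ρ r).restrict (inv r r.2)
      map_one' := LinearMap.ext fun w => Subtype.ext (by
        show ρ 1 w = w
        rw [h.one, End.one_apply])
      map_mul' := fun a b => LinearMap.ext fun w => Subtype.ext (h.mul _ a.2 _ b.2 _) }
  have m0 : 0 < finrank ℂ W := finrank_pos_iff_exists_ne_zero.2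
    ⟨⟨v, hvW⟩, fun e => hv (congrArg Subtype.val e)⟩
  refine ⟨W, hvW, inv, fun a ha b hb w hw => ?_⟩
  have cm : ∀ a ∈ R, ⁅a, b⁆ ∈ ⁅R, R⁆ := fun a ha => Subgroup.commutator_mem_commutator ha hb
  have one := h.ev hR (reg_comm b) (fun a ha => le (cm a ha)) hv
    ((Polynomial.nthRoots (finrank ℂ W) (1 : ℂ)).toFinset.finite_toSet)
    (fun a ha => (k _ (cm a ha)).imp fun c q => ⟨?_, q⟩) R.one_mem (c := 1) (by simp [h.one]) a ha
  · rw [← h.mul _ ha _ hb, show a * b = ⁅a, b⁆ * (b * a) by group,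
      h.mul _ (le (cm a ha)) _ (R.mul_mem hb ha), h.mul _ hb _ ha,
      inv b hb _ (inv a ha w hw) _ (cm a ha) 1 one, one_smul]
  · have e : σ ⁅(⟨a, ha⟩ : R), ⟨b, hb⟩⁆ = c • 1 :=
      LinearMap.ext fun w => Subtype.ext (w.2 _ (cm a ha) c q)
    have d1 : ∀ x y : R, (LinearMap.det.comp σ) ⁅x, y⁆ = 1 := fun x y => by
      have q : ∀ z : R, (LinearMap.det.comp σ) z * (LinearMap.det.comp σ) z⁻¹ = 1 := fun z => by
        rw [← map_mul, mul_inv_cancel, map_one]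
      rw [commutatorElement_def, map_mul, map_mul, map_mul]
      linear_combination ((LinearMap.det.comp σ) y * (LinearMap.det.comp σ) y⁻¹) * q x + q y
    have := d1 ⟨a, ha⟩ ⟨b, hb⟩
    rw [MonoidHom.comp_apply, e, LinearMap.det_smul, map_one, mul_one] at this
    simpa [Polynomial.mem_nthRoots m0] using this

/-- commuting operators have a common eigenvector -/
theorem cev {ι : Type} (T : ι → End ℂ E) (W : Submodule ℂ E) (h0 : W ≠ ⊥)
    (inv : ∀ i, ∀ w ∈ W, T i w ∈ W) (cm : ∀ i j, ∀ w ∈ W, T i (T j w) = T j (T i w)) :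
    ∃ u ∈ W, u ≠ 0 ∧ ∀ i, ∃ c : ℂ, T i u = c • u := by
  induction hm : finrank ℂ W using Nat.strong_induction_on generalizing W with | _ m ih => ?_
  by_cases sc : ∀ i, ∃ c : ℂ, ∀ w ∈ W, T i w = c • w
  · obtain ⟨u, hu, u0⟩ := W.ne_bot_iff.1 h0
    exact ⟨u, hu, u0, fun i => (sc i).imp fun c q => q u hu⟩
  push Not at sc
  obtain ⟨i, hi⟩ := sc
  have : Nontrivial W := Submodule.nontrivial_iff_ne_bot.2 h0
  obtain ⟨c, hc⟩ := End.exists_eigenvalue ((T i).restrict (inv i))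
  obtain ⟨u, hu⟩ := hc.exists_hasEigenvector
  obtain ⟨w, hw, w0⟩ := hi c
  obtain ⟨u, h1, h2⟩ := ih _ (hm ▸ Submodule.finrank_lt_finrank_of_lt (s := W ⊓ (T i).eigenspace c)
    (inf_le_left.lt_of_ne fun e => w0 (End.mem_eigenspace_iff.1 (e.ge hw).2)))
    (W ⊓ (T i).eigenspace c)
    ((Submodule.ne_bot_iff _).2 ⟨u, ⟨u.2, End.mem_eigenspace_iff.2
      (congrArg Subtype.val hu.apply_eq_smul)⟩, fun e => hu.2 (Subtype.ext e)⟩)
    (fun j w hw => ⟨inv j w hw.1, End.mem_eigenspace_iff.2 (by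
      rw [cm i j w hw.1, End.mem_eigenspace_iff.1 hw.2, map_smul])⟩)
    (fun i j w hw => cm i j w hw.1) rfl
  exact ⟨u, h1.1, h2⟩

/-- descending induction along the derived series -/
theorem down (hR : ZConn (R : Set (SLn N))) (hs : Group.IsSolvable R) (P : Subgroup (SLn N) → Prop)
    (h0 : P ⊥) (step : ∀ S ≤ R, ZConn (S : Set (SLn N)) → P ⁅S, S⁆ → P S) : P R := by
  obtain ⟨k, hk⟩ := solv_iff.1 hs
  rw [← hk] at h0
  clear hk
  induction k with
  | zero => exact h0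
  | succ k ih => exact ih (step _ (der_le k) (der_conn hR k) h0)

/-- the theorem of Lie and Kolchin -/
theorem Rep.lk [Nontrivial E] (h : Rep R ρ) (hR : ZConn (R : Set (SLn N)))
    (hs : Group.IsSolvable R) : ∃ v : E, v ≠ 0 ∧ ∀ r ∈ R, ∃ c : ℂ, ρ r v = c • v := by
  refine down hR hs (fun S => ∃ v : E, v ≠ 0 ∧ ∀ r ∈ S, ∃ c : ℂ, ρ r v = c • v)
    ((exists_ne 0).imp fun v hv => ⟨hv, fun r hr => ⟨1, ?_⟩⟩) fun S le hS ⟨v, hv, k⟩ => ?_
  · rw [Subgroup.mem_bot.1 hr, h.one, End.one_apply, one_smul]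
  · obtain ⟨W, h1, h2, h3⟩ := (h.mono le).step hS hv k
    obtain ⟨u, -, u0, hu⟩ := cev (fun r : S => ρ r) W (W.ne_bot_iff.2 ⟨v, h1, hv⟩)
      (fun r => h2 r r.2) fun a b => h3 a a.2 b b.2
    exact ⟨u, u0, fun r hr => hu ⟨r, hr⟩⟩

/-- the standard representation -/
def std (g : SLn N) : End ℂ (Cm N) := Matrix.toLin' g.1

theorem std_apply (g : SLn N) (v : Cm N) : std g v = g.1 *ᵥ v := Matrix.toLin'_apply _ _

theorem rep_std (R : Subgroup (SLn N)) : Rep R std :=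
  ⟨Matrix.toLin'_one, fun a _ b _ w => by
    simp only [std_apply, Matrix.SpecialLinearGroup.coe_mul, Matrix.mulVec_mulVec],
    fun l w => ⟨_, Reg.id.lin l w, fun g _ => by rw [std_apply]⟩⟩

end Vale.Agent.P280Z.Gp
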