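import Vale.Agent.P280Z.Gp.Sk
import Mathlib.LinearAlgebra.Matrix.Adjugate
import Mathlib.Topology.Algebra.MvPolynomial

/-!
# P280, block GP: the Zariski topology of the special linear group
-/

open scoped Topology Matrix commutatorElement
open Vale.Agent.P272.K Set

noncomputable section

namespace Vale.Agent.P280Z.Gp

variable {N : ℕ}

/-- polynomial functions -/
def Pol (f : SLn N → ℂ) : Prop :=
  ∃ p : MvPolynomial (Fin N × Fin N) ℂ, ∀ g, f g = MvPolynomial.eval (fun a => g.1 a.1 a.2) p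

/-- polynomial maps -/
def Reg (φ : SLn N → SLn N) : Prop := ∀ i j, Pol fun g => (φ g).1 i j

variable {f f' : SLn N → ℂ} {φ ψ : SLn N → SLn N} {A B : Set (SLn N)}

theorem Pol.const (c : ℂ) : Pol fun _ : SLn N => c := ⟨.C c, fun _ => by simp⟩

theorem Pol.add (h : Pol f) (h' : Pol f') : Pol fun g => f g + f' g :=
  let ⟨p, k⟩ := h
  let ⟨q, k'⟩ := h'
  ⟨p + q, fun g => by simp only [k, k', map_add]⟩

theorem Pol.mul (h : Pol f) (h' : Pol f') : Pol fun g => f g * f' g :=
  let ⟨p, k⟩ := h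
  let ⟨q, k'⟩ := h'
  ⟨p * q, fun g => by simp only [k, k', map_mul]⟩

theorem Pol.sub (h : Pol f) (h' : Pol f') : Pol fun g => f g - f' g :=
  let ⟨p, k⟩ := h
  let ⟨q, k'⟩ := h'
  ⟨p - q, fun g => by simp only [k, k', map_sub]⟩

theorem Pol.sum {ι : Type} (s : Finset ι) {F : ι → SLn N → ℂ} (h : ∀ i, Pol (F i)) :
    Pol fun g => ∑ i ∈ s, F i g := by
  choose p k using h
  exact ⟨∑ i ∈ s, p i, fun g => by simp only [map_sum, k]⟩

theorem Pol.prod {ι : Type} (s : Finset ι) {F : ι → SLn N → ℂ} (h : ∀ i, Pol (F i)) :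
    Pol fun g => ∏ i ∈ s, F i g := by
  choose p k using h
  exact ⟨∏ i ∈ s, p i, fun g => by simp only [map_prod, k]⟩

theorem Pol.comp (h : Pol f) (hφ : Reg φ) : Pol fun g => f (φ g) := by
  obtain ⟨p, k⟩ := h
  simp only [k]
  clear k
  induction p using MvPolynomial.induction_on with
  | C c => simpa using Pol.const c
  | add p q hp hq => simpa using hp.add hq
  | mul_X p a hp => simpa using hp.mul (hφ a.1 a.2)

theorem Reg.id : Reg fun g : SLn N => g := fun i j => ⟨.X (i, j), fun _ => by simp⟩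

theorem Reg.const (a : SLn N) : Reg fun _ => a := fun _ _ => .const _

theorem Reg.mul (h : Reg φ) (h' : Reg ψ) : Reg fun g => φ g * ψ g := fun i j => by
  simp only [Matrix.SpecialLinearGroup.coe_mul, Matrix.mul_apply]
  exact Pol.sum _ fun k => (h i k).mul (h' k j)

theorem Reg.inv (h : Reg φ) : Reg fun g => (φ g)⁻¹ := fun i j => by
  simp only [Matrix.SpecialLinearGroup.coe_inv, Matrix.adjugate_apply, Matrix.det_apply',
    Matrix.updateRow_apply]
  refine Pol.sum _ fun σ => (Pol.const _).mul (Pol.prod _ fun a => ?_)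
  by_cases k : σ a = j
  · simpa only [if_pos k] using Pol.const _
  · simpa only [if_neg k] using h _ _

theorem Reg.lin (h : Reg φ) (l : Cm N →ₗ[ℂ] ℂ) (v : Cm N) : Pol fun g => l ((φ g).1 *ᵥ v) := by
  simp only [l.pi_apply_eq_sum_univ ((φ _).1 *ᵥ v), smul_eq_mul, Matrix.mulVec, dotProduct]
  exact Pol.sum _ fun i => (Pol.sum _ fun j => (h i j).mul (.const _)).mul (.const _)

theorem ZClosed.of_pol {ι : Type} {F : ι → SLn N → ℂ} (h : ∀ i, Pol (F i))
    (k : ∀ g, g ∈ A ↔ ∀ i, F i g = 0) : ZClosed A := by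
  choose p hp using h
  exact ⟨range p, fun g => by simp only [k, hp, forall_mem_range]⟩

theorem ZClosed.pre (h : ZClosed A) (hφ : Reg φ) : ZClosed (φ ⁻¹' A) := by
  obtain ⟨I, k⟩ := h
  have H0 : ∀ p : I, Pol fun g : SLn N => MvPolynomial.eval (fun a => g.1 a.1 a.2) p.1 :=
    fun p => ⟨p.1, fun _ => by beta_reduce; rfl⟩
  refine ZClosed.of_pol (fun p => (H0 p).comp hφ) fun g => ?_
  rw [mem_preimage, k]
  exact ⟨fun a p => a p.1 p.2, fun a p hp => a ⟨p, hp⟩⟩

theorem ZClosed.sInter {S : Set (Set (SLn N))} (h : ∀ A ∈ S, ZClosed A) : ZClosed (⋂₀ S) := by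
  choose I k using h
  refine ⟨⋃ A, ⋃ h, I A h, fun g => ?_⟩
  simp only [mem_sInter, mem_iUnion, forall_exists_index]
  exact ⟨fun H p A h hp => (k A h g).1 (H A h) p hp, fun H A h => (k A h g).2 fun p => H p A h⟩

theorem ZClosed.inter (h : ZClosed A) (h' : ZClosed B) : ZClosed (A ∩ B) := by
  rw [← sInter_pair]
  exact .sInter (by simp [h, h'])

theorem ZClosed.empty : ZClosed (∅ : Set (SLn N)) := ⟨{1}, fun _ => by simp⟩

theorem ZClosed.union (h : ZClosed A) (h' : ZClosed B) : ZClosed (A ∪ B) := by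
  obtain ⟨I, k⟩ := h
  obtain ⟨J, k'⟩ := h'
  refine ⟨image2 (· * ·) I J, fun g => ?_⟩
  simp only [mem_union, k, k', forall_mem_image2, map_mul, mul_eq_zero]
  refine ⟨fun H p hp q hq => H.imp (· p hp) (· q hq), fun H => or_iff_not_imp_left.2 fun c q hq => ?_⟩
  push Not at c
  obtain ⟨p, hp, c⟩ := c
  exact (H p hp q hq).resolve_left c

theorem ZClosed.biUnion {α : Type} {F : Set α} (hF : F.Finite) {L : α → Set (SLn N)}
    (h : ∀ c, ZClosed (L c)) : ZClosed (⋃ c ∈ F, L c) := by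
  induction F, hF using Set.Finite.induction_on with
  | empty => simpa using ZClosed.empty
  | insert _ _ ih => rw [biUnion_insert]; exact (h _).union ih

theorem ZConn.image (h : ZConn A) (hφ : Reg φ) : ZConn (φ '' A) := fun _ _ hB hC k k' =>
  (h _ _ (hB.pre hφ) (hC.pre hφ) (fun _ hg => k (mem_image_of_mem φ hg))
    (eq_empty_of_forall_notMem fun g hg => notMem_empty (φ g)
      (k' ▸ ⟨mem_image_of_mem φ hg.1, hg.2⟩))).imp image_subset_iff.2 image_subset_iff.2

theorem ZConn.sUnion {S : Set (Set (SLn N))} (a : SLn N) (h : ∀ A ∈ S, ZConn A ∧ a ∈ A) :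
    ZConn (⋃₀ S) := fun B C hB hC k k' => by
  have H : ∀ A ∈ S, A ⊆ B ∨ A ⊆ C := fun A hA => (h A hA).1 B C hB hC
    ((subset_sUnion_of_mem hA).trans k) (subset_eq_empty
      (inter_subset_inter_left _ (subset_sUnion_of_mem hA)) k')
  have d : ∀ A ∈ S, a ∈ B → a ∈ C → False := fun A hA b c =>
    notMem_empty a (k' ▸ ⟨⟨A, hA, (h A hA).2⟩, b, c⟩)
  by_cases c : a ∈ B
  · exact .inl (sUnion_subset fun A hA => (H A hA).resolve_right fun e => d A hA c (e (h A hA).2))
  · exact .inr (sUnion_subset fun A hA => (H A hA).resolve_left fun e => c (e (h A hA).2))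

theorem ZConn.single (a : SLn N) : ZConn {a} := fun _ _ _ _ k _ =>
  (k rfl).imp singleton_subset_iff.2 singleton_subset_iff.2

/-- a connected set lies in one member of a finite closed partition -/
theorem ZConn.const {α : Type} (h : ZConn A) {F : Set α} (hF : F.Finite) {L : α → Set (SLn N)}
    (hL : ∀ c, ZClosed (L c)) (cov : ∀ g ∈ A, ∃ c ∈ F, g ∈ L c)
    (dis : ∀ g ∈ A, ∀ c c', g ∈ L c → g ∈ L c' → c = c') {a : SLn N} (ha : a ∈ A) {c : α}
    (hc : a ∈ L c) : A ⊆ L c := by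
  refine (h _ _ (hL c) (.biUnion (hF.sdiff (t := {c})) hL) (fun g hg => ?_)
    (eq_empty_of_forall_notMem fun g hg => ?_)).resolve_right fun k => ?_
  · obtain ⟨c', h1, h2⟩ := cov g hg
    by_cases e : c' = c
    · exact .inl (e ▸ h2)
    · exact .inr (mem_biUnion (t := L) (show c' ∈ F \ {c} from ⟨h1, e⟩) h2)
  · obtain ⟨c', h1, h2⟩ := mem_iUnion₂.1 hg.2.2
    exact h1.2 (dis g hg.1 _ _ h2 hg.2.1)
  · obtain ⟨c', h1, h2⟩ := mem_iUnion₂.1 (k ha)
    exact h1.2 (dis a ha _ _ h2 hc)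

/-- continuous images of connected spaces -/
theorem ZConn.range {T : Type} [TopologicalSpace T] [PreconnectedSpace T] {γ : T → SLn N}
    (h : Continuous fun x => (γ x).1) : ZConn (range γ) := fun B C hB hC k k' => by
  have cl : ∀ {A : Set (SLn N)}, ZClosed A → IsClosed (γ ⁻¹' A) := fun ⟨I, hI⟩ => by
    simp only [preimage, hI, ofPred_forall]
    exact isClosed_iInter fun p => isClosed_iInter fun _ => isClosed_eq
      ((MvPolynomial.continuous_eval p).comp (continuous_pi fun a => h.matrix_elem a.1 a.2))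
      continuous_const
  refine ((isPreconnected_iff_subset_of_disjoint_closed.1 isPreconnected_univ) _ _ (cl hB) (cl hC)
    (fun x _ => k (mem_range_self x)) (eq_empty_of_forall_notMem fun x hx =>
      notMem_empty (γ x) (k' ▸ ⟨mem_range_self x, hx.2⟩))).imp (fun e => ?_) fun e => ?_
  · exact range_subset_iff.2 fun x => e trivial
  · exact range_subset_iff.2 fun x => e trivial

/-- the identity component -/
def idc (G : Subgroup (SLn N)) : Subgroup (SLn N) where
  carrier := ⋃₀ {S | ZConn S ∧ 1 ∈ S ∧ S ⊆ G}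
  one_mem' := ⟨{1}, ⟨.single 1, rfl, singleton_subset_iff.2 G.one_mem⟩, rfl⟩
  mul_mem' := by
    rintro a b ⟨S, hS, ha⟩ ⟨T, hT, hb⟩
    refine ⟨⋃₀ {S, (a * ·) '' T}, ⟨.sUnion a ?_, ⟨S, .inl rfl, hS.2.1⟩, ?_⟩,
      _, .inr rfl, mem_image_of_mem _ hb⟩
    · rintro _ (rfl | rfl)
      · exact ⟨hS.1, ha⟩
      · exact ⟨hT.1.image ((Reg.const a).mul .id), 1, hT.2.1, mul_one a⟩
    · rw [sUnion_pair]
      exact union_subset hS.2.2 (image_subset_iff.2 fun t ht => G.mul_mem (hS.2.2 ha) (hT.2.2 ht))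
  inv_mem' := by
    rintro a ⟨S, hS, ha⟩
    exact ⟨(·⁻¹) '' S, ⟨hS.1.image Reg.id.inv, ⟨1, hS.2.1, inv_one⟩,
      image_subset_iff.2 fun t ht => G.inv_mem (hS.2.2 ht)⟩, mem_image_of_mem _ ha⟩

variable {G R : Subgroup (SLn N)}

theorem idc_le : idc G ≤ G := fun _ ⟨_, hS, ha⟩ => hS.2.2 ha

theorem idc_conn : ZConn (idc G : Set (SLn N)) := .sUnion 1 fun _ h => ⟨h.1, h.2.1⟩

theorem sub_idc (h : ZConn A) (h1 : 1 ∈ A) (h2 : A ⊆ G) : A ⊆ idc G := fun _ ha =>
  ⟨A, ⟨h, h1, h2⟩, ha⟩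

theorem idc_closed (h : ZClosed (G : Set (SLn N))) : ZClosed (idc G : Set (SLn N)) := by
  have k : (idc G : Set (SLn N)) ⊆ ⋂₀ {S | ZClosed S ∧ (idc G : Set (SLn N)) ⊆ S} :=
    subset_sInter fun _ hS => hS.2
  rw [k.antisymm (sub_idc (fun B C hB hC e e' => ?_) (k (idc G).one_mem)
    (sInter_subset_of_mem ⟨h, idc_le⟩))]
  · exact .sInter fun _ hS => hS.1
  · exact (idc_conn B C hB hC (k.trans e) (subset_eq_empty (inter_subset_inter_left _ k) e')).imp
      (fun c => sInter_subset_of_mem ⟨hB, c⟩) fun c => sInter_subset_of_mem ⟨hC, c⟩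

theorem reg_comm (b : SLn N) : Reg fun a => ⁅a, b⁆ :=
  ((Reg.id.mul (.const b)).mul Reg.id.inv).mul (.const _)

theorem ZConn.comm (h : ZConn (R : Set (SLn N))) : ZConn ((⁅R, R⁆ : Subgroup _) : Set (SLn N)) := by
  have : ⁅R, R⁆ ≤ idc ⁅R, R⁆ := Subgroup.commutator_le.2 fun a ha b hb =>
    sub_idc (h.image (reg_comm b)) ⟨1, R.one_mem, commutatorElement_one_left b⟩
      (image_subset_iff.2 fun _ hx => Subgroup.commutator_mem_commutator hx hb)
      (mem_image_of_mem _ ha)
  rw [this.antisymm idc_le]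
  exact idc_conn

/-- the derived series inside the ambient group -/
def der (R : Subgroup (SLn N)) : ℕ → Subgroup (SLn N)
  | 0 => R
  | k + 1 => ⁅der R k, der R k⁆

theorem der_eq (k : ℕ) : (derivedSeries R k).map R.subtype = der R k := by
  induction k with
  | zero => exact (MonoidHom.range_eq_map _).symm.trans R.range_subtype
  | succ k ih => rw [derivedSeries_succ, Subgroup.map_commutator, ih, der]

theorem solv_iff : Group.IsSolvable R ↔ ∃ k, der R k = ⊥ := by
  simp only [Group.isSolvable_def, ← der_eq,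
    Subgroup.map_eq_bot_iff_of_injective _ R.subtype_injective]

theorem der_conn (h : ZConn (R : Set (SLn N))) (k : ℕ) : ZConn (der R k : Set (SLn N)) := by
  induction k with
  | zero => exact h
  | succ k ih => exact ih.comm

theorem der_le (k : ℕ) : der R k ≤ R := der_eq (R := R) k ▸ Subgroup.map_subtype_le _

end Vale.Agent.P280Z.Gp
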